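import Vale.Agent.P287D.St
import Vale.Agent.P287D.Z.Lp

/-!
# P287D, geography: Mori fibre spaces and links (statements)
-/

set_option linter.unusedVariables false

open Set Filter Topology
open P277Z.Gor

noncomputable section

namespace Vale.Agent.P287D

section out

variable {K : Type} [Field K] [Algebra ℂ K]

/-- `V Λ → V B` is a Mori fibre space, `Γ` is the pull back of the canonical divisor -/
structure Mfs (n : ℕ) (Λ Γ B : BD K) : Prop where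
  term : Term n Λ Γ
  qf : QF n Λ
  smp : Smp B
  des : Dsc Λ B
  nb : ¬ Big B
  rho : rho Λ = rho B + 1
  amp : ∃ m : ℝ, AmpOn Λ (m • B - Γ)

/-- a vertex: the generalised pair `Γ` with the nef part `R - Γ`, the base `V R` and the model
`V Y` over it, the prime divisors of which are the crepant places -/
structure Vtx (n : ℕ) (Γ R Y ΓY : BD K) : Prop where
  car : Γ ∈ Car K
  smp : Smp R
  nb : ¬ Big R
  nef : Smp (R - Γ)
  big : Big (R - Γ)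
  nn : 0 ≤ dsc (n + 1) Γ
  term : Term n Y ΓY
  qf : QF n Y
  des : Dsc Y R
  on : ∀ P, On n Y P ↔ dsc (n + 1) Γ P = 0
  rho : rho Y ≤ rho R + 2
  top : ∃ ΓW, Term n (R - Γ) ΓW ∧ QF n (R - Γ) ∧ ∀ P, On n Y P → On n (R - Γ) P
  rat : CarQ R ∧ CarQ (R - Γ)
  ext : ∀ Λ, Smp Λ → Big Λ → Dsc Λ R → (∀ P, On n Λ P → On n Y P) →
    ∃ Z ΓZ, Term n Z ΓZ ∧ QF n Z ∧ Dsc Z Λ ∧ ∀ P, On n Z P ↔ On n Y P

/-- a Mori fibre space `a = (Λ, Γ, B)` at the vertex -/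
structure Sd (n : ℕ) (R Y : BD K) (a : BD K × BD K × BD K) : Prop where
  mfs : Mfs n a.1 a.2.1 a.2.2
  des : Dsc a.2.2 R
  sub : ∀ P, On n a.1 P → On n Y P
  cnt : rho Y = rho a.1 + {P | On n Y P ∧ ¬ On n a.1 P}.ncard

/-- links (the trivial ones included) -/
def Lnk (n : ℕ) (a b : BD K × BD K × BD K) : Prop :=
  ∃ Γ R Y ΓY, Vtx n Γ R Y ΓY ∧ Sd n R Y a ∧ Sd n R Y b

end out

/-- **GEO**: the Sarkisov program between Fano varieties of Picard number one -/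
def GEO : Prop := ForS fun n K _ _ => ∀ Λ Γ Λ' Γ' : BD K, Fano1 n Λ → Term n Λ Γ → Fano1 n Λ' →
  Term n Λ' Γ' → Relation.ReflTransGen (Lnk n) (Λ, Γ, 0) (Λ', Γ', 0)

/-- **SEP**: a prime divisor of `V Λ` is determined by its centre -/
def SEP : Prop := ForS fun n K _ _ => ∀ (Λ : BD K) (Q R : Pl K), Smp Λ → Big Λ → On n Λ Q →
  CLe Λ Q R → R = Q

/-- **RHO**: the Picard number under a birational contraction -/
def RHO : Prop := ForS fun n K _ _ => ∀ Λ Λ' : BD K, Smp Λ → Big Λ → Smp Λ' → Big Λ' → QF n Λ →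
  QF n Λ' → Module.Finite ℝ (Pic Λ) → (∀ P, On n Λ' P → On n Λ P) →
  rho Λ = rho Λ' + {P | On n Λ P ∧ ¬ On n Λ' P}.ncard

/-- the rows of the interface which are used -/
structure GA : Prop where
  mod : MOD
  res : RES
  neg : NEG
  fld : FLD
  ftn : FTN
  zar : ZAR
  sep : SEP
  rho : RHO

section cvx

variable {ι : Type} [Fintype ι]

/-- the flat of `y` -/
def Fl (H : Finset (ι → ℤ)) (y : ι → ℝ) : Submodule ℝ (ι → ℝ) where
  carrier := {v | ∀ h ∈ H, pr h y = 0 → pr h v = 0}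
  zero_mem' := fun _ _ _ => by simp
  add_mem' := fun a b h hh e => by rw [pr_add, a h hh e, b h hh e, add_zero]
  smul_mem' := fun c _ a h hh e => by rw [pr_smul, a h hh e, mul_zero]

/-- the cell of `y` has codimension at most `r` -/
def Rk (H : Finset (ι → ℤ)) (y : ι → ℝ) (r : ℕ) : Prop :=
  Fintype.card ι ≤ Module.finrank ℝ (Fl H y) + r

variable (ι) in
/-- the open orthant -/
def Op : Set (ι → ℝ) := {a | ∀ i, 0 < a i}

/-- boundary points of rank at most `r` -/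
def Bp (H : Finset (ι → ℤ)) (E O : Set (ι → ℝ)) (r : ℕ) (x : ι → ℝ) : Prop :=
  x ∈ frontier E ∧ x ∈ O ∧ Rk H x r

/-- neighbouring facets -/
def Stp (H : Finset (ι → ℤ)) (E O : Set (ι → ℝ)) (x x' : ι → ℝ) : Prop :=
  Bp H E O 1 x ∧ Bp H E O 1 x' ∧ ∃ y, Bp H E O 2 y ∧ y ∈ cell H x ∧ y ∈ cell H x'

/-- the boundary points `x b` are seen from `p` -/
structure See (E O : Set (ι → ℝ)) (p : ι → ℝ) (q x : Bool → ι → ℝ) : Prop where
  mem : p ∈ O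
  out : p ∉ E
  inn : ∀ b, q b ∈ O ∧ q b ∈ interior E
  seg : ∀ b, x b ∈ segment ℝ p (q b) ∧ x b ∈ frontier E

end cvx

/-- **PATH** -/
def PATH : Prop := ∀ (ι : Type) [Fintype ι] (H : Finset (ι → ℤ)) (E O : Set (ι → ℝ)) (p : ι → ℝ)
  (q x : Bool → ι → ℝ) (W : Bool → Set (ι → ℝ)), IsClosed E → Convex ℝ E → IsOpen O →
  Convex ℝ O → See E O p q x → (∀ b, W b ∈ 𝓝 (x b)) →
  ∃ x' : Bool → ι → ℝ, (∀ b, x' b ∈ W b ∧ Bp H E O 1 (x' b)) ∧
    Relation.ReflTransGen (Stp H E O) (x' false) (x' true)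

section ctx

variable {K : Type} [Field K] [Algebra ℂ K] {ι : Type} [Fintype ι]

/-- the effective cone -/
def Ec (D : ι → BD K) : Set (ι → ℝ) := {a | 0 ≤ a ∧ Eff (lc D a)}

/-- Zariski decompositions which are linear on the cells -/
structure Zc (D : ι → BD K) (H : Finset (ι → ℤ)) (N : (ι → ℝ) → BD K) : Prop where
  zd : ∀ a ∈ Ec D, ZD (lc D a) (N a)
  sub : ∀ z ∈ Ec D, cell H z ⊆ Ec D
  lin : ∀ z ∈ Ec D, ∃ L : (ι → ℝ) →ₗ[ℝ] BD K, (∀ a, L a ∈ Car K) ∧ ∀ a ∈ cell H z, N a = L a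

/-- the common model `V Ω` and adjoint classes which span its Picard group -/
structure Ctx (n : ℕ) (Ω κ : BD K) (D : ι → BD K) (H : Finset (ι → ℤ)) (N : (ι → ℝ) → BD K) :
    Prop where
  term : Term n Ω κ
  qf : QF n Ω
  pic : ∀ Λ : BD K, Smp Λ → Module.Finite ℝ (Pic Λ)
  amp : ∀ i, AmpOn Ω (D i - κ)
  onto : ∀ β, Dsc Ω β → ∃ a, β - lc D a ∈ Prn K
  zc : Zc D H N

/-- the model of the full cell of `z` -/
structure Fu (n : ℕ) (Ω κ : BD K) (D : ι → BD K) (H : Finset (ι → ℤ)) (N : (ι → ℝ) → BD K)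
    (z : ι → ℝ) (L : (ι → ℝ) →ₗ[ℝ] BD K) (ΓY : BD K) : Prop where
  lin : ∀ a ∈ cell H z, N a = L a
  term : Term n (lc D z - N z) ΓY
  qf : QF n (lc D z - N z)
  on : ∀ P, On n (lc D z - N z) P ↔ On n Ω P ∧ N z P = 0
  des : ∀ a, Dsc (lc D z - N z) (lc D a - L a)
  onto : ∀ β, Dsc (lc D z - N z) β → ∃ a, β - (lc D a - L a) ∈ Prn K
  can : ∃ k, κ - lc D k ∈ Prn K ∧ ΓY = κ - L k

/-- the model `V Y` over the base `V R` at a boundary point with the fixed part `F` -/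
structure Fa (n r : ℕ) (Ω R F Y ΓY : BD K) : Prop where
  term : Term n Y ΓY
  qf : QF n Y
  des : Dsc Y R
  nb : ¬ Big R
  on : ∀ P, On n Y P ↔ On n Ω P ∧ F P = 0
  lo : rho R + 1 ≤ rho Y
  up : rho Y ≤ rho R + r
  amp : rho Y = rho R + 1 → ∃ m : ℝ, AmpOn Y (m • R - ΓY)

end ctx

/-- **ZC**: cells -/
def ZC : Prop := ForS fun n K _ _ => ∀ (ι : Type) [Fintype ι] (Ω κ : BD K) (D : ι → BD K),
  Term n Ω κ → (∀ i, CarQ (D i) ∧ AmpOn Ω (D i - κ)) → ∃ H N, Zc D H N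

/-- **FULL** -/
def FULL : Prop := ForS fun n K _ _ => ∀ (ι : Type) [Fintype ι] (Ω κ : BD K) (D : ι → BD K) H N,
  Ctx n Ω κ D H N → ∀ z ∈ Ec D, z ∈ Op ι → Rk H z 0 → ∃ L ΓY, Fu n Ω κ D H N z L ΓY

/-- **FACE** -/
def FACE : Prop := ForS fun n K _ _ => ∀ (ι : Type) [Fintype ι] (Ω κ : BD K) (D : ι → BD K) H N,
  Ctx n Ω κ D H N → ∀ r y, Bp H (Ec D) (Op ι) r y →
    ∃ Y ΓY, Fa n r Ω (lc D y - N y) (N y) Y ΓY

/-- **SETUP**: the common model and the two ends -/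
def SETUP : Prop := ForS fun n K _ _ => ∀ Λ : Bool → BD K, (∀ b, Fano1 n (Λ b)) →
  ∃ (ι : Type) (_ : Fintype ι) (Ω κ : BD K) (D : ι → BD K) (H : Finset (ι → ℤ))
    (N : (ι → ℝ) → BD K) (p : ι → ℝ) (q x : Bool → ι → ℝ), Ctx n Ω κ D H N ∧
    See (Ec D) (Op ι) p q x ∧ ∀ b, ∀ᶠ y in 𝓝 (x b), y ∈ frontier (Ec D) →
      lc D y - N y ∈ Prn K ∧ ∀ P, On n (Λ b) P ↔ On n Ω P ∧ N y P = 0

end Vale.Agent.P287D
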