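import Mathlib

/-!
# P287D: entry points of segments into a closed convex set, generic points
-/

set_option linter.all false

open Set Filter Topology AffineMap

noncomputable section

namespace Vale.Agent.P287D.Ge

variable {V : Type} [NormedAddCommGroup V] [NormedSpace ℝ V]

/-- the time at which the segment from `p` to `q` enters `E` -/
def et (E : Set V) (p q : V) : ℝ := sInf {t | t ∈ Icc (0 : ℝ) 1 ∧ lineMap p q t ∈ E}

/-- the point at which the segment from `p` to `q` enters `E` -/
def ent (E : Set V) (p q : V) : V := lineMap p q (et E p q)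

variable {E : Set V} {p q : V}

theorem cont_lm (p q : V) : Continuous fun t : ℝ => (lineMap p q t : V) := by
  simp only [lineMap_apply_module]; fun_prop

theorem et_mem (hc : IsClosed E) (hq : q ∈ E) :
    et E p q ∈ Icc (0 : ℝ) 1 ∧ ent E p q ∈ E :=
  IsClosed.csInf_mem (s := {t | t ∈ Icc (0 : ℝ) 1 ∧ lineMap p q t ∈ E})
    (isClosed_Icc.inter (hc.preimage (cont_lm p q))) ⟨1, ⟨zero_le_one, le_rfl⟩, by simpa⟩
    ⟨0, fun _ h => h.1.1⟩

theorem et_le {s : ℝ} (hs : s ∈ Icc (0 : ℝ) 1) (h : lineMap p q s ∈ E) : et E p q ≤ s :=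
  csInf_le ⟨0, fun _ h => h.1.1⟩ ⟨hs, h⟩

theorem et_pos (hc : IsClosed E) (hq : q ∈ E) (hp : p ∉ E) : 0 < et E p q := by
  obtain ⟨h1, h2⟩ := et_mem (p := p) hc hq
  refine lt_of_le_of_ne h1.1 fun e => hp ?_
  simpa [ent, ← e] using h2

theorem lm_int (hc : IsClosed E) (hv : Convex ℝ E) (hq : q ∈ interior E) {s : ℝ}
    (h1 : et E p q < s) (h2 : s ≤ 1) : lineMap p q s ∈ interior E := by
  obtain ⟨-, a2⟩ := et_mem (p := p) hc (interior_subset hq)
  have k : 0 < 1 - et E p q := by linarith
  have := hv.combo_interior_self_mem_interior hq a2 (a := (s - et E p q) / (1 - et E p q))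
    (b := (1 - s) / (1 - et E p q)) (div_pos (by linarith) k) (div_nonneg (by linarith) k.le)
    (by field_simp; ring)
  convert this using 1
  simp only [ent, lineMap_apply_module]
  match_scalars <;> field_simp <;> ring

theorem ent_front (hc : IsClosed E) (hq : q ∈ E) (hp : p ∉ E) : ent E p q ∈ frontier E := by
  obtain ⟨h1, h2⟩ := et_mem (p := p) hc hq
  refine ⟨subset_closure h2, fun h => ?_⟩
  have h3 : ∀ᶠ s in 𝓝 (et E p q), lineMap p q s ∈ E :=
    (cont_lm p q).continuousAt.eventually (mem_interior_iff_mem_nhds.1 h)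
  have h4 : ∀ᶠ s in 𝓝[<] (et E p q), lineMap p q s ∈ E ∧ 0 < s :=
    (h3.and (lt_mem_nhds (et_pos hc hq hp))).filter_mono nhdsWithin_le_nhds
  obtain ⟨s, ⟨a1, a2⟩, a3⟩ := (h4.and self_mem_nhdsWithin).exists
  exact absurd (et_le ⟨a2.le, (le_of_lt a3).trans h1.2⟩ a1) (not_le.2 a3)

theorem ent_seg (hc : IsClosed E) (hq : q ∈ E) : ent E p q ∈ segment ℝ p q := by
  rw [segment_eq_image_lineMap]
  exact ⟨_, (et_mem hc hq).1, rfl⟩

theorem ent_eq (hc : IsClosed E) (hv : Convex ℝ E) (hq : q ∈ interior E) {x : V}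
    (hx : x ∈ frontier E) (hs : x ∈ segment ℝ p q) : ent E p q = x := by
  rw [segment_eq_image_lineMap] at hs
  obtain ⟨s, a1, rfl⟩ := hs
  have := et_le a1 (hc.frontier_subset hx)
  rcases this.eq_or_lt with e | e
  · rw [ent, e]
  · exact absurd (lm_int hc hv hq e a1.2) hx.2

theorem et_cont (hc : IsClosed E) (hv : Convex ℝ E) (hq : q ∈ interior E) (hp : p ∉ E) :
    ContinuousAt (fun z : V × V => et E z.1 z.2) (p, q) := by
  have cl : ∀ c : ℝ, ContinuousAt (fun z : V × V => (lineMap z.1 z.2 c : V)) (p, q) := fun c => by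
    simp only [lineMap_apply_module]; fun_prop
  have d2 : ∀ᶠ z : V × V in 𝓝 (p, q), z.2 ∈ interior E :=
    continuous_snd.continuousAt.eventually (isOpen_interior.mem_nhds hq)
  have h0 := et_pos hc (interior_subset hq) hp
  have h1 := (et_mem (p := p) hc (interior_subset hq)).1
  refine tendsto_order.2 ⟨fun c hc' => ?_, fun c hc' => ?_⟩
  · have k1 : max c 0 < et E p q := max_lt hc' h0
    have k2 : lineMap p q (max c 0) ∉ E := fun h =>
      absurd (et_le ⟨le_max_right _ _, k1.le.trans h1.2⟩ h) (not_le.2 k1)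
    filter_upwards [d2, (cl (max c 0)).eventually (hc.isOpen_compl.mem_nhds k2)] with z a1 a2
    refine lt_of_le_of_lt (le_max_left c 0) (not_le.1 fun e => a2 ?_)
    rcases e.eq_or_lt with e | e
    · exact e ▸ (et_mem hc (interior_subset a1)).2
    · exact interior_subset (lm_int hc hv a1 e (k1.le.trans h1.2))
  · have k0 : et E p q < 1 := lt_of_le_of_ne h1.2 fun e =>
      (ent_front hc (interior_subset hq) hp).2 (by simpa [ent, e] using hq)
    obtain ⟨s, k1, k2⟩ := exists_between (lt_min hc' k0)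
    have k3 := lm_int hc hv hq k1 (k2.le.trans (min_le_right _ _))
    filter_upwards [(cl s).eventually (isOpen_interior.mem_nhds k3)] with z a
    exact lt_of_le_of_lt (et_le ⟨h0.le.trans k1.le, k2.le.trans (min_le_right _ _)⟩
      (interior_subset a)) (k2.trans_le (min_le_left _ _))

theorem ent_cont (hc : IsClosed E) (hv : Convex ℝ E) (hq : q ∈ interior E) (hp : p ∉ E) :
    ContinuousAt (fun z : V × V => ent E z.1 z.2) (p, q) := by
  have := et_cont hc hv hq hp
  simp only [ent, lineMap_apply_module]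
  fun_prop

/-- generic points: off countably many proper subspaces -/
theorem dense_gen [FiniteDimensional ℝ V] {α : Type} [Countable α] (Z : α → Submodule ℝ V) :
    Dense {x | ∀ a, Z a ≠ ⊤ → x ∉ Z a} := by
  have := FiniteDimensional.complete ℝ V
  have h := dense_iInter_of_isOpen (f := fun a => {x | Z a ≠ ⊤ → x ∉ Z a}) (fun a => ?_) fun a => ?_
  · convert h using 1
    ext x; simp
  · by_cases e : Z a = ⊤
    · simp [e]
    · simp only [ne_eq, e, not_false_eq_true, forall_const]
      exact (Z a).closed_of_finiteDimensional.isOpen_compl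
  · by_cases e : Z a = ⊤
    · simp [e]
    · have : Dense ((Z a : Set V)ᶜ) := interior_eq_empty_iff_dense_compl.1
        (not_nonempty_iff_eq_empty.1 fun h => e ((Z a).eq_top_of_nonempty_interior' h))
      simp only [ne_eq, e, not_false_eq_true, forall_const]
      exact this

end Vale.Agent.P287D.Ge
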