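import Vale.Agent.P287D.Ge.St

/-!
# P287D, geography: statements, second part
-/

set_option linter.unusedVariables false

open Set Filter Topology

noncomputable section

namespace Vale.Agent.P287D

/-- **FACE0**: the model over the moving part -/
def FACE0 : Prop := ForS fun n K _ _ => ∀ (ι : Type) [Fintype ι] (Ω κ : BD K) (D : ι → BD K) H N,
  Ctx n Ω κ D H N → ∀ w ∈ Ec D, w ∈ Op ι → ∃ Y ΓY, Term n Y ΓY ∧ QF n Y ∧ Dsc Y (lc D w - N w) ∧
    ∀ P, On n Y P ↔ On n Ω P ∧ N w P = 0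

/-- **SETUP1**: the common model and the two ends, with rational classes -/
def SETUP1 : Prop := ForS fun n K _ _ => ∀ Λ : Bool → BD K, (∀ b, Fano1 n (Λ b)) →
  ∃ (ι : Type) (_ : Fintype ι) (Ω κ : BD K) (D : ι → BD K) (H : Finset (ι → ℤ))
    (N : (ι → ℝ) → BD K) (p : ι → ℝ) (q x : Bool → ι → ℝ), Ctx n Ω κ D H N ∧ CarQ κ ∧
    (∀ i, CarQ (D i)) ∧ See (Ec D) (Op ι) p q x ∧ ∀ b, ∀ᶠ y in 𝓝 (x b), y ∈ frontier (Ec D) →
      lc D y - N y ∈ Prn K ∧ ∀ P, On n (Λ b) P ↔ On n Ω P ∧ N y P = 0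

end Vale.Agent.P287D
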