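import Vale.Agent.P287D.Ge.Zc
import Vale.Agent.P287D.Ge.St2
import Vale.Agent.P287D.Ge.Ent
import Vale.Agent.P287D.Gs.Ful

/-!
# P287D, geography: the common model and the two ends
-/

set_option linter.all false

open Set Filter Topology

noncomputable section

namespace Vale.Agent.P287D.Ge

open Gs

variable {K : Type} [Field K] [Algebra ℂ K] {n : ℕ} {Λ Ω β γ γ' A : BD K}

section rows

variable (h : GA) (hK : FF K (n + 1))
include h hK

theorem on_mono (hΩ : Smp Ω) (hΛ : Smp Λ) (hb : Big Λ) (hd : Dsc Ω Λ) {P : Pl K}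
    (hP : On n Λ P) : On n Ω P :=
  (on_zd (D := Λ) (N := 0) h.neg hK h.mod h.sep hΩ (big_of_dsc hd hb) hd
    ⟨le_rfl, by simpa, fun _ a => a.1⟩ (by simpa) (by simpa)).1

theorem hull_uniq (hΛ : Smp Λ) (hb : Big Λ) (a : Hull n Λ β γ) (b : Hull n Λ β γ') : γ = γ' :=
  det_eq h.neg hK hΛ hb a.1 b.1 fun P hP => (a.2 P hP).trans (b.2 P hP).symm

theorem hull_ex (hΛ : Smp Λ) (hb : Big Λ) (hq : QF n Λ) (hβ : β ∈ Car K) : ∃ γ, Hull n Λ β γ :=
  exists_hull h.neg hK hΛ hq (isb_fin hK h.neg hΛ hb ((h.mod.isb n K hK).1 β hβ))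

theorem hull_rep (hΛ : Smp Λ) (hb : Big Λ) (a : Hull n Λ β γ) {G : BD K} (hG : Rep β G) :
    0 ≤ γ + (G - β) :=
  det h.neg hK hΛ hb (dsc_add hΛ a.1 (dsc_prn hΛ hG.2)) fun P hP => by
    simpa [a.2 P hP] using hG.1 P

theorem hull_eff (hΛ : Smp Λ) (hb : Big Λ) (a : Hull n Λ β γ) (e : Eff β) : Eff γ :=
  let ⟨_, hG⟩ := e
  eff_iff.2 ⟨_, hG.2, hull_rep h hK hΛ hb a hG⟩

theorem hull_zd (hΛ : Smp Λ) (hb : Big Λ) (a : Hull n Λ β γ) (hs : Smp γ) (h0 : 0 ≤ β - γ) :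
    ZD β (β - γ) :=
  ⟨h0, by simpa, fun G hG P => by
    have := hull_rep h hK hΛ hb a hG P
    simp only [Pi.add_apply, Pi.sub_apply, Pi.zero_apply] at this ⊢
    linarith⟩

theorem hull_le (hΩ : Smp Ω) (hb : Big Ω) (hd : Dsc Ω Λ) (hβ : Dsc Ω β) (a : Hull n Λ β γ)
    (h0 : ∀ P, On n Ω P → ¬ On n Λ P → 0 < (β - γ) P) : 0 ≤ β - γ :=
  det h.neg hK hΩ hb (dsc_sub hΩ hβ (dsc_trans hd a.1)) fun P hP => by
    by_cases e : On n Λ P
    · simp [a.2 P e]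
    · exact (h0 P hP e).le

/-- the degree on a variety of Picard number one -/
theorem exists_deg (hΛ : Smp Λ) (hb : Big Λ) (h1 : rho Λ = 1) : ∃ c : BD K →ₗ[ℝ] ℝ,
    (∀ β, Dsc Λ β → β - c β • Λ ∈ Prn K) ∧ (∀ β, Dsc Λ β → Eff β → 0 ≤ c β) ∧
      ∀ β, AmpOn Λ β → 0 < c β := by
  have n0 : Λ ∉ Prn K := fun e => by
    have := subsingleton_bd h.mod hK e hb
    have := (Submodule.mkQ_surjective (Prn K)).subsingleton
    rw [rho, Module.finrank_zero_of_subsingleton] at h1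
    exact zero_ne_one h1
  have n1 : (Prn K).mkQ Λ ≠ 0 := fun e => n0 ((Submodule.Quotient.mk_eq_zero _).1 e)
  obtain ⟨φ, hφ⟩ := Module.Projective.exists_dual_eq_one ℝ n1
  have k1 : ∀ β, Dsc Λ β → β - φ ((Prn K).mkQ β) • Λ ∈ Prn K := fun β d => by
    obtain ⟨t, e⟩ := (finrank_eq_one_iff_of_nonzero' (K := ℝ)
      (⟨_, (mem_pic hΛ).2 (dsc_self hΛ)⟩ : Pic Λ) fun e => n1 (congrArg Subtype.val e)).1 h1
      ⟨_, (mem_pic hΛ).2 d⟩
    have e' : t • (Prn K).mkQ Λ = (Prn K).mkQ β := congrArg Subtype.val e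
    rw [← e', map_smul, hφ, smul_eq_mul, mul_one]
    exact (Submodule.Quotient.eq _).1 e'.symm
  have k2 : ∀ β, Dsc Λ β → Eff β → 0 ≤ φ ((Prn K).mkQ β) := fun β d e => not_lt.1 fun l => by
    obtain ⟨G, a⟩ : Eff (-Λ) := Eff.of_smul (neg_pos.2 l)
      (e.congr (by simpa using neg_mem (k1 β d)))
    obtain ⟨G', b⟩ := hΛ.eff
    have z := h.mod.zero n K hK _ (by simpa using (a.add b).2) (a.add b).1
    have : G' = 0 := le_antisymm (by simpa [z] using add_le_add_left a.1 G') b.1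
    exact n0 (by simpa [this] using b.2)
  refine ⟨φ.comp (Prn K).mkQ, k1, k2, fun β ⟨d, ε, e, a⟩ => ?_⟩
  have := k2 _ (dsc_sub hΛ d (dsc_smul hΛ ε (dsc_self hΛ))) a.eff
  rw [map_sub, map_smul, map_sub, map_smul, hφ, smul_eq_mul, mul_one] at this
  exact lt_of_lt_of_le e (sub_nonneg.1 this)

end rows

theorem exists_span (hΩ : Smp Ω) (hf : Module.Finite ℝ (Pic Ω)) : ∃ T : Finset (BD K),
    (∀ t ∈ T, Dsc Ω t ∧ t ∈ range mx) ∧
      ∀ β, Dsc Ω β → (Prn K).mkQ β ∈ Submodule.span ℝ ((Prn K).mkQ '' T) := by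
  classical
  have e : Pic Ω = Submodule.span ℝ ((Prn K).mkQ '' {t | Dsc Ω t ∧ t ∈ range mx}) := by
    refine le_antisymm (Submodule.span_le.2 ?_) (Submodule.span_mono (image_mono fun _ h => h.1))
    rintro _ ⟨β, d, rfl⟩
    obtain ⟨l, rfl, hl⟩ := dsc_span hΩ d
    rw [cmb_sum, map_sum]
    exact sum_mem fun s hs => by
      rw [map_smul]
      exact Submodule.smul_mem _ _ (Submodule.subset_span
        ⟨_, ⟨hl s (Finsupp.mem_support_iff.1 hs), s, rfl⟩, rfl⟩)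
  obtain ⟨S, a, b⟩ := (Submodule.fg_span_iff_fg_span_finset_subset _).1
    (e ▸ Module.Finite.iff_fg.1 hf)
  obtain ⟨T, c, rfl⟩ := Finset.subset_set_image_iff.1 a
  exact ⟨T, c, fun β d => by rw [← Finset.coe_image, ← b, ← e]; exact (mem_pic hΩ).2 d⟩

variable {ι : Type} [Fintype ι]

theorem lc_single [DecidableEq ι] (D : ι → BD K) (i : ι) : lc D (Pi.single i 1) = D i := by
  simp [lc, Pi.single_apply]

theorem hull_lc (hΛ : Smp Λ) {D E : ι → BD K} (h : ∀ i, Hull n Λ (D i) (E i)) (a : ι → ℝ) :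
    Hull n Λ (lc D a) (lc E a) :=
  ⟨(dS hΛ).sum_mem fun i _ => dsc_smul hΛ _ (h i).1, fun P hP => by
    simp [lc, Finset.sum_apply, (h _).2 P hP]⟩

theorem near_op {a : ι → ℝ} (h : 0 ≤ a) {V : Set (ι → ℝ)} (hV : V ∈ 𝓝 a) :
    ∃ b ∈ V, b ∈ Op ι := by
  have t : Tendsto (fun η : ℝ => a + η • (1 : ι → ℝ)) (𝓝[>] 0) (𝓝 a) :=
    (Continuous.tendsto' (by fun_prop) _ _ (by simp)).mono_left nhdsWithin_le_nhds
  obtain ⟨η, u, v⟩ := ((t.eventually hV).and self_mem_nhdsWithin).exists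
  exact ⟨_, u, fun i => by simpa using add_pos_of_nonneg_of_pos (h i) v⟩

theorem setup1 (h : GA) (hz : ZC) : SETUP1 := by
  classical
  intro n K _ _ hK Λ F
  choose Γ hT hA using fun b => (F b).term
  obtain ⟨s, κ, hκ, κZ, -, hd, -, hq⟩ := h.mod.ex n K hK ∅ (range Λ) finite_empty (finite_range Λ)
    (by rintro _ ⟨b, rfl⟩; exact (hT b).smp.car)
  have ΩZ := carQ_mx s
  generalize mx s = Ω at *
  have hΩ := hκ.smp
  have sΛ := fun b => (hT b).smp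
  have bΛ := fun b => (hT b).big
  have dΛ : ∀ b, Dsc Ω (Λ b) := fun b => hd _ ⟨b, rfl⟩
  have pic := h.ftn.pic n K hK ⟨Λ true, Γ true, sΛ _, bΛ _, term_car (hT _), term_bdy (hT _),
    term_klt (hT _), (ampOn_smp (sΛ _) (hA _)).nef, big_ampOn (bΛ _) (hA _)⟩
  choose c c1 c2 c3 using fun b => exists_deg h hK (sΛ b) (bΛ b) (F b).rho
  choose ω hω using fun b => hull_ex h hK (sΛ b) (bΛ b) (F b).qf hΩ.car
  have fin := fun b => h.mod.exc n K hK Ω (Λ b) hΩ hκ.big (sΛ b) (bΛ b)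
  obtain ⟨δ, δ0, δ1⟩ : ∃ δ : ℚ, (0 : ℝ) < δ ∧ ∀ b, c b (Γ b + (δ : ℝ) • ω b) < 0 ∧
      ∀ P, On n Ω P → ¬ On n (Λ b) P → 0 < (κ + (δ : ℝ) • Ω - (Γ b + (δ : ℝ) • ω b)) P := by
    have : ∀ᶠ δ : ℝ in 𝓝 0, ∀ b, c b (Γ b + δ • ω b) < 0 ∧
        ∀ P ∈ {P | On n Ω P ∧ ¬ On n (Λ b) P}, 0 < (κ + δ • Ω - (Γ b + δ • ω b)) P := by
      refine eventually_all.2 fun b => .and ?_ ((fin b).eventually_all.2 fun P hP => ?_)
      · simp only [map_add, map_smul, smul_eq_mul]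
        exact ContinuousAt.eventually_lt (by fun_prop) continuousAt_const
          (by simpa using c3 b _ (hA b))
      · simp only [Pi.add_apply, Pi.sub_apply, Pi.smul_apply, smul_eq_mul]
        exact ContinuousAt.eventually_lt continuousAt_const (by fun_prop)
          (by simpa [hκ.hull.2 P hP.1, dsc] using (hT b).pos P hP.2)
    obtain ⟨ε, e, k⟩ := Metric.eventually_nhds_iff.1 this
    obtain ⟨δ, a, b⟩ := exists_rat_btwn e
    exact ⟨δ, a, fun i => let w := k (y := δ) (by rwa [Real.dist_0_eq_abs, abs_of_pos a]) i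
      ⟨w.1, fun P u v => w.2 P ⟨u, v⟩⟩⟩
  obtain ⟨M, M1, M2⟩ : ∃ M : Bool → BD K, (∀ b, Dsc (Λ b) (M b) ∧ M b ∈ range mx) ∧
      ∀ b, 0 < c b (Γ b + (δ : ℝ) • ω b + M b) := by
    refine (Classical.axiomOfChoice (r := fun b M => (Dsc (Λ b) M ∧ M ∈ range mx) ∧
      0 < c b (Γ b + (δ : ℝ) • ω b + M)) fun b => ?_).imp fun M k => ⟨fun b => (k b).1, fun b => (k b).2⟩
    obtain ⟨u, hu⟩ := exists_mx (sΛ b)
    obtain ⟨m, hm⟩ := exists_nat_gt (-c b (Γ b + (δ : ℝ) • ω b) / c b (mx u))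
    obtain ⟨w, -, e⟩ := exists_mx_nsmul u m
    refine ⟨_, ⟨e ▸ dsc_smul (sΛ b) _ hu.1, w, rfl⟩, ?_⟩
    rw [div_lt_iff₀ (c3 b _ hu)] at hm
    rw [e, map_add, map_smul, smul_eq_mul]
    linarith
  obtain ⟨T, T1, T2⟩ := exists_span hΩ (pic Ω hΩ)
  let B : Option Bool ⊕ T → BD K := Sum.elim (fun o => o.elim 0 M) (↑)
  have hB : ∀ i, Dsc Ω (B i) ∧ B i ∈ range mx := by
    rintro ((_ | b) | t)
    exacts [⟨dsc_zero hΩ, ∅, mx_empty⟩, ⟨dsc_trans (dΛ b) (M1 b).1, (M1 b).2⟩, T1 _ t.2]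
  let D : Option Bool ⊕ T → BD K := fun i => κ + (δ : ℝ) • Ω + B i
  have amp : ∀ i, AmpOn Ω (D i - κ) := fun i => by
    obtain ⟨a, u, e⟩ := hB i
    have := ampOn_add hΩ (ampOn_smul hΩ (ampOn_self hΩ) δ0) a (e ▸ smp_mx u)
    rwa [show (δ : ℝ) • Ω + B i = D i - κ by simp only [D]; abel] at this
  have DQ : ∀ i, CarQ (D i) := fun i => ((CarZ.carQ κZ).add (ΩZ.qsmul δ)).add
    (let ⟨u, e⟩ := (hB i).2; e ▸ carQ_mx u)
  obtain ⟨H, N, zc⟩ := hz n K hK _ Ω κ D hκ fun i => ⟨DQ i, amp i⟩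
  have ctx : Ctx n Ω κ D H N := ⟨hκ, fun P hP => let ⟨β, a, b⟩ := hq P hP; ⟨β, CarZ.carQ a, b⟩,
    pic, amp, fun β d => by
      obtain ⟨_, ⟨a, rfl⟩, e⟩ : (Prn K).mkQ β ∈ (LinearMap.range (lcl D)).map (Prn K).mkQ := by
        refine Submodule.span_le.2 ?_ (T2 β d)
        rintro _ ⟨t, ht, rfl⟩
        exact ⟨t, ⟨Pi.single (.inr ⟨t, ht⟩) 1 - Pi.single (.inl none) 1, by
          simp [lcl_apply, lc_sub, lc_single, D, B]⟩, rfl⟩
      exact ⟨a, (Submodule.Quotient.eq _).1 e.symm⟩, zc⟩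
  choose E hE using fun b i => hull_ex h hK (sΛ b) (bΛ b) (F b).qf
    (dsc_car hΩ (lc_single D i ▸ ctx_des ctx (Pi.single i 1)))
  have hE' : ∀ b i, Dsc (Λ b) (B i) → E b i = Γ b + (δ : ℝ) • ω b + B i := fun b i d =>
    hull_uniq h hK (sΛ b) (bΛ b) (hE b i) ⟨dsc_add (sΛ b) (dsc_add (sΛ b) (hT b).hull.1
      (dsc_smul (sΛ b) _ (hω b).1)) d, fun P hP => by
        simp [D, (hT b).hull.2 P hP, (hω b).2 P hP,
          hκ.hull.2 P (on_mono h hK hΩ (sΛ b) (bΛ b) (dΛ b) hP)]⟩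
  have hl := fun b => hull_lc (sΛ b) (hE b)
  let V := fun b => {a | ∀ P, On n Ω P → ¬ On n (Λ b) P → 0 < (lc D a - lc (E b) a) P}
  have Vo : ∀ b, IsOpen (V b) := fun b => by
    have := (fin b).isOpen_biInter (f := fun P => {a | 0 < (lc D a - lc (E b) a) P}) fun P _ =>
      isOpen_lt continuous_const (by simp only [lc, Pi.sub_apply, Finset.sum_apply]; fun_prop)
    convert this using 1
    ext a; simp [V]
  have Vc : ∀ b, Convex ℝ (V b) := fun b x hx y hy u v hu hv e P h1 h2 => by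
    have := (convex_Ioi (0 : ℝ)) (hx P h1 h2) (hy P h1 h2) hu hv e
    simp only [lc_add, lc_smul, Pi.add_apply, Pi.sub_apply, Pi.smul_apply, smul_eq_mul,
      mem_Ioi] at this ⊢
    linarith
  have cc : ∀ b, Continuous fun a => c b (lc (E b) a) := fun b =>
    ((c b).comp (lcl (E b))).continuous_of_finiteDimensional
  have e1 : ∀ b, ∀ a ∈ Ec D, 0 ≤ c b (lc (E b) a) := fun b a k =>
    c2 b _ (hl b a).1 (hull_eff h hK (sΛ b) (bΛ b) (hl b a) k.2)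
  have e2 : ∀ b, ∀ a ∈ V b, 0 ≤ lc D a - lc (E b) a := fun b a k =>
    hull_le h hK hΩ hκ.big (dΛ b) (ctx_des ctx a) (hl b a) k
  have e3 : ∀ b, ∀ a ∈ V b, a ∈ Op _ → 0 < c b (lc (E b) a) → a ∈ interior (Ec D) :=
    fun b a k k' l => mem_interior_iff_mem_nhds.2 (by
      filter_upwards [(Vo b).mem_nhds k, op_open.mem_nhds k',
        (isOpen_lt continuous_const (cc b)).mem_nhds l] with y u v w
      exact ⟨fun i => (v i).le, (((sΛ b).eff.smul w.le).congr (c1 b _ (hl b y).1)).mono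
        (sub_nonneg.1 (e2 b y u))⟩)
  have pos : ∀ i : Option Bool ⊕ T, (0 : Option Bool ⊕ T → ℝ) ≤ Pi.single i 1 := fun i =>
    Pi.single_nonneg.2 zero_le_one
  have vx : ∀ b i, Dsc (Λ b) (B i) → Pi.single i 1 ∈ V b := fun b i d P u v => by
    simpa [lc_single, hE' b i d, D] using (δ1 b).2 P u v
  obtain ⟨p, p1, p2⟩ := near_op (pos (.inl none))
    (V := {a | ∀ b, a ∈ V b ∧ c b (lc (E b) a) < 0}) (eventually_all.2 fun b =>
      ((Vo b).eventually_mem (vx b (.inl none) (dsc_zero (sΛ b)))).and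
        ((isOpen_lt (cc b) continuous_const).eventually_mem (by
          simpa [lc_single, hE' b (.inl none) (dsc_zero (sΛ b)), B] using (δ1 b).1)))
  choose q q1 q2 using fun b => near_op (pos (.inl (some b)))
    (V := {a | a ∈ V b ∧ 0 < c b (lc (E b) a)})
      (((Vo b).eventually_mem (vx b (.inl (some b)) (M1 b).1)).and
        ((isOpen_lt continuous_const (cc b)).eventually_mem (by
          simpa [lc_single, hE' b (.inl (some b)) (M1 b).1, B] using M2 b)))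
  have cl := ec_closed zc
  have po : p ∉ Ec D := fun k => absurd (e1 true p k) (not_le.2 (p1 true).2)
  have qi := fun b => e3 b _ (q1 b).1 (q2 b) (q1 b).2
  have sg := fun b => ent_seg (p := p) cl (interior_subset (qi b))
  refine ⟨_, inferInstance, Ω, κ, D, H, N, p, q, fun b => ent (Ec D) p (q b), ctx,
    CarZ.carQ κZ, DQ, ⟨p2, po, fun b => ⟨q2 b, qi b⟩, fun b => ⟨sg b, ent_front cl (interior_subset (qi b)) po⟩⟩,
    fun b => ?_⟩
  filter_upwards [(Vo b).mem_nhds ((Vc b).segment_subset (p1 b).1 (q1 b).1 (sg b)),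
    op_open.mem_nhds (op_convex.segment_subset p2 (q2 b) (sg b))] with y u v w
  have m := cl.frontier_subset w
  have z : lc (E b) y ∈ Prn K := by
    simpa [((e1 b y m).eq_or_lt.resolve_right fun l => w.2 (e3 b y u v l)).symm] using
      c1 b _ (hl b y).1
  rw [Gs.zd_uniq h.neg hK (zc.zd y m)
    (hull_zd h hK (sΛ b) (bΛ b) (hl b y) (Smp.of_prn z) (e2 b y u))]
  refine ⟨by simpa, fun P => ⟨fun k => ⟨on_mono h hK hΩ (sΛ b) (bΛ b) (dΛ b) k, by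
    simp [(hl b y).2 P k]⟩, fun k => by_contra fun l => (u P k.1 l).ne' k.2⟩⟩

theorem setup (h : GA) (hz : ZC) : SETUP := fun n K _ _ hK Λ F =>
  let ⟨ι, i, Ω, κ, D, H, N, p, q, x, a, _, _, b⟩ := setup1 h hz n K hK Λ F
  ⟨ι, i, Ω, κ, D, H, N, p, q, x, a, b⟩

end Vale.Agent.P287D.Ge
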