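import Vale.Agent.P287D.Ge.Geo
import Vale.Agent.P287D.Ge.Set

/-!
# P287D, geography: the theorem
-/

namespace Vale.Agent.P287D.Ge

theorem geo_of (h : GA) : GEO := geo h (setup1 h (zc h.zar))

end Vale.Agent.P287D.Ge
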