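import Vale.Agent.P287D.Gs.Ful

/-!
# P287D, geography: the Picard number under a birational contraction
-/

set_option linter.all false

open Set

noncomputable section

namespace Vale.Agent.P287D

open Gs

theorem rho_of (hM : MOD) (hN : NEG) : RHO := by
  classical
  intro n K _ _ hK Λ Λ' s b s' b' q q' hf sub
  have fi := fun β hβ => isb_fin hK hN s b ((hM.isb n K hK).1 β hβ)
  choose ψ hψ using fun β : dS s =>
    exists_hull hN hK s' q' (isb_fin hK hN s' b' ((hM.isb n K hK).1 β (dsc_car s β.2)))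
  have un : ∀ (β : dS s) γ, Dsc Λ' γ → (∀ P, On n Λ' P → γ P = β.1 P) → ψ β = γ := fun β γ d e =>
    det_eq hN hK s' b' (hψ β).1 d fun P hP => ((hψ β).2 P hP).trans (e P hP).symm
  let ψ' : dS s →ₗ[ℝ] BD K :=
    { toFun := ψ
      map_add' := fun x y => un _ _ (dsc_add s' (hψ x).1 (hψ y).1) fun P hP => by
        simp [(hψ x).2 P hP, (hψ y).2 P hP]
      map_smul' := fun c x => un _ _ (dsc_smul s' c (hψ x).1) fun P hP => by
        simp [(hψ x).2 P hP] }
  have fe := hM.exc n K hK Λ Λ' s b s' b'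
  set X := {P | On n Λ P ∧ ¬ On n Λ' P} with hX
  have := fe.fintype
  let F : dS s →ₗ[ℝ] Pic Λ' × (X → ℝ) :=
    (((Prn K).mkQ.comp ψ').codRestrict _ fun β => (mem_pic s').2 (hψ β).1).prod
      ((LinearMap.funLeft ℝ ℝ Subtype.val).comp ((dS s).subtype - ψ'))
  let G : dS s →ₗ[ℝ] Pic Λ :=
    ((Prn K).mkQ.comp (dS s).subtype).codRestrict _ fun β => (mem_pic s).2 β.2
  have hF : ∀ β, F β = 0 ↔ ψ β ∈ Prn K ∧ ∀ P ∈ X, β.1 P - ψ β P = 0 := fun β =>
    Prod.ext_iff.trans (and_congr (Subtype.ext_iff.trans (Submodule.Quotient.mk_eq_zero _))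
      (funext_iff.trans Subtype.forall))
  have hG : ∀ β, G β = 0 ↔ β.1 ∈ Prn K := fun β =>
    Subtype.ext_iff.trans (Submodule.Quotient.mk_eq_zero _)
  have k : LinearMap.ker G = LinearMap.ker F := Submodule.ext fun β => by
    rw [LinearMap.mem_ker, LinearMap.mem_ker, hF, hG]
    refine ⟨fun h => ?_, fun h => ?_⟩
    · rw [un β β.1 (dsc_prn s' h) fun _ _ => rfl]
      exact ⟨h, fun _ _ => sub_self _⟩
    · rw [det_eq hN hK s b β.2 (dsc_prn s h.1) fun P hP => ?_]
      · exact h.1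
      · by_cases e : On n Λ' P
        exacts [((hψ β).2 P e).symm, sub_eq_zero.1 (h.2 P ⟨hP, e⟩)]
  have sG : Function.Surjective G := fun ⟨x, hx⟩ => by
    obtain ⟨β, rfl⟩ := (Prn K).mkQ_surjective x
    exact ⟨⟨β, (mem_pic s).1 hx⟩, rfl⟩
  have sF : Function.Surjective F := fun ⟨⟨x, hx⟩, r⟩ => by
    obtain ⟨γ, rfl⟩ := (Prn K).mkQ_surjective x
    have d := (mem_pic s').1 hx
    obtain ⟨β, h1, h2⟩ := exists_hull (Z := γ + fun P => if h : P ∈ X then r ⟨P, h⟩ else 0) hN hK s q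
      (((fi γ (dsc_car s' d)).union fe).subset fun P hP => by
        by_cases e : P ∈ X
        · exact .inr e
        · exact .inl ⟨hP.1, by simpa [e] using hP.2⟩)
    have e : ψ ⟨β, h1⟩ = γ := un _ _ d fun P hP => by
      have : P ∉ X := fun w => w.2 hP
      simp [h2 P (sub P hP), this]
    refine ⟨⟨β, h1⟩, Prod.ext (Subtype.ext (congrArg (Prn K).mkQ e)) (funext fun P => ?_)⟩
    change β P - ψ ⟨β, h1⟩ P = r P
    simp [e, h2 P P.2.1]
  let e := ((G.quotKerEquivOfSurjective sG).symm.trans (Submodule.quotEquivOfEq _ _ k)).trans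
    (F.quotKerEquivOfSurjective sF)
  have := Module.Finite.equiv e
  have : Module.Finite ℝ (Pic Λ') :=
    .of_surjective (LinearMap.fst ℝ _ (X → ℝ)) Prod.fst_surjective
  rw [rho, rho, e.finrank_eq, Module.finrank_prod, Module.finrank_fintype_fun_eq_card,
    ← Nat.card_eq_fintype_card, Nat.card_coe_set_eq]

end Vale.Agent.P287D
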