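import Vale.Agent.P287D.Ge.St
import Vale.Agent.P287D.Gs.Bas
import Vale.Agent.P287D.Gs.Gen
import Vale.Agent.P287D.Va.Cone

/-!
# P287D, geography: boundary points
-/

set_option linter.unusedSectionVars false
set_option linter.unusedVariables false

open Set Filter Topology Module
open P277Z.Gor

noncomputable section

namespace Vale.Agent.P287D

namespace Face

variable {K : Type} [Field K] [Algebra ℂ K] {ι : Type} [Fintype ι] {n : ℕ} {Ω κ ΓY : BD K}
  {D : ι → BD K} {H : Finset (ι → ℤ)} {N : (ι → ℝ) → BD K} {y z v : ι → ℝ}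
  {L : (ι → ℝ) →ₗ[ℝ] BD K}

/-- `lc D` as a linear map -/
def lcL (D : ι → BD K) : (ι → ℝ) →ₗ[ℝ] BD K := Fintype.linearCombination ℝ D

theorem lcL_apply (D : ι → BD K) (a : ι → ℝ) : lcL D a = lc D a := rfl

theorem lc_add (D : ι → BD K) (a b : ι → ℝ) : lc D (a + b) = lc D a + lc D b := (lcL D).map_add a b

theorem lc_sub (D : ι → BD K) (a b : ι → ℝ) : lc D (a - b) = lc D a - lc D b := (lcL D).map_sub a b

theorem lc_smul (D : ι → BD K) (c : ℝ) (a : ι → ℝ) : lc D (c • a) = c • lc D a :=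
  (lcL D).map_smul c a

/-- a convex cone which is open in finitely many directions -/
theorem near {C : BD K → Prop} (h1 : ∀ a b, C a → C b → C (a + b))
    (h2 : ∀ a (c : ℝ), 0 < c → C a → C (c • a)) {β : BD K} (h0 : C β)
    (h : ∀ i, ∃ ε : ℝ, 0 < ε ∧ ∀ c : ℝ, |c| ≤ ε → C (β + c • D i)) :
    ∀ᶠ a in 𝓝 (0 : ι → ℝ), C (β + lc D a) := by
  classical
  suffices k : ∀ s : Finset ι, ∀ᶠ a in 𝓝 (0 : ι → ℝ), C (β + ∑ i ∈ s, a i • D i) from k _
  intro s
  induction s using Finset.induction_on with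
  | empty => simpa using h0
  | insert j s hj ih =>
    obtain ⟨ε, e, k⟩ := h j
    have t1 : Tendsto (fun a : ι → ℝ => (2 : ℝ) • a) (𝓝 0) (𝓝 0) := by
      simpa using (continuous_const_smul (2 : ℝ)).tendsto (0 : ι → ℝ)
    have t2 : ContinuousAt (fun a : ι → ℝ => |2 * a j|) 0 :=
      (continuous_const.mul (continuous_apply j)).abs.continuousAt
    filter_upwards [t1.eventually ih, t2.eventually_lt continuousAt_const (g := fun _ => ε)
      (by simpa using e)] with a h3 h4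
    have := h2 _ (1 / 2) (by norm_num) (h1 _ _ h3 (k _ h4.le))
    have q : β + ∑ i ∈ insert j s, a i • D i =
        (1 / 2 : ℝ) • (β + ∑ i ∈ s, ((2 : ℝ) • a) i • D i + (β + (2 * a j) • D j)) := by
      simp only [Finset.sum_insert hj, Pi.smul_apply, smul_eq_mul, mul_smul, ← Finset.smul_sum]
      module
    rw [q]
    exact this

theorem near' {C : BD K → Prop} (h1 : ∀ a b, C a → C b → C (a + b))
    (h2 : ∀ a (c : ℝ), 0 < c → C a → C (c • a)) (w : ι → ℝ) (h0 : C (lc D (y - w)))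
    (h : ∀ i, ∃ ε : ℝ, 0 < ε ∧ ∀ c : ℝ, |c| ≤ ε → C (lc D (y - w) + c • D i)) :
    ∀ᶠ a in 𝓝 y, C (lc D (a - w)) := by
  have t : Tendsto (fun a : ι → ℝ => a - y) (𝓝 y) (𝓝 0) := by
    simpa using (continuous_sub_right y).tendsto y
  filter_upwards [t.eventually (near h1 h2 h0 h)] with a ha
  rwa [← lc_add, add_comm, sub_add_sub_cancel] at ha

theorem isOpen_op : IsOpen (Op ι) := by
  have : Op ι = ⋂ i, {a : ι → ℝ | 0 < a i} := by
    ext a
    simp [Op]
  rw [this]
  exact isOpen_iInter_of_finite fun i => isOpen_lt continuous_const (continuous_apply i)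

theorem isClosed_ec (h : Zc D H N) : IsClosed (Ec D) := by
  have : Ec D = ⋃ C ∈ cell H '' Ec D, C := by
    refine Subset.antisymm (fun z hz => mem_iUnion₂.2 ⟨_, ⟨z, hz, rfl⟩, mem_cell_self H z⟩) ?_
    refine iUnion₂_subset ?_
    rintro _ ⟨z, hz, rfl⟩
    exact h.sub z hz
  rw [this]
  refine ((finite_cells H).subset (image_subset_range _ _)).isClosed_biUnion ?_
  rintro _ ⟨z, -, rfl⟩
  exact isClosed_cell H z

/-- a point is in the relative interior of its cell -/
theorem fl_near (hv : v ∈ Fl H y) : ∀ᶠ t in 𝓝 (0 : ℝ), y + t • v ∈ cell H y := by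
  refine (Filter.eventually_all_finset H).2 fun g hg => ?_
  have c : ContinuousAt (fun t : ℝ => pr g (y + t • v)) 0 :=
    ((continuous_pr g).comp (by fun_prop)).continuousAt
  rcases lt_trichotomy (pr g y) 0 with e | e | e
  · exact (c.eventually_lt continuousAt_const (g := fun _ => 0) (by simpa using e)).mono
      fun _ k => ⟨fun q => absurd q (not_le.2 e), fun _ => k.le⟩
  · refine .of_forall fun t => ?_
    rw [pr_add, pr_smul, e, hv g hg e]
    simp
  · exact (continuousAt_const.eventually_lt (f := fun _ => 0) c (by simpa using e)).mono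
      fun _ k => ⟨fun _ => k.le, fun q => absurd q (not_le.2 e)⟩

theorem fl_eps (hv : v ∈ Fl H y) :
    ∃ ε : ℝ, 0 < ε ∧ y + ε • v ∈ cell H y ∧ y - ε • v ∈ cell H y := by
  obtain ⟨δ, d, k⟩ := Metric.eventually_nhds_iff.1 (fl_near hv)
  refine ⟨δ / 2, by positivity, k ?_, ?_⟩
  · rw [Real.dist_eq, sub_zero, abs_of_pos (by positivity)]
    linarith
  · rw [sub_eq_add_neg, ← neg_smul]
    refine k ?_
    rw [Real.dist_eq, sub_zero, abs_neg, abs_of_pos (by positivity)]
    linarith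

theorem fl_top (h : Rk H z 0) : Fl H z = ⊤ :=
  Submodule.eq_top_of_finrank_eq (le_antisymm (Submodule.finrank_le _) (by simpa [Rk] using h))

/-- adding a semiample class does not increase the fixed part -/
theorem fix_mono {A A' F F' : BD K} (h : ZD A F) (h' : ZD A' F') (e : Smp (A' - A)) : F' ≤ F := by
  intro Q
  obtain ⟨G, a, b⟩ := (h.smp.add e).exists_rep (finite_singleton Q)
  have k : Rep A' (G + F) := (a.add (Rep.refl h.nn)).congr (by simp)
  simpa [b Q rfl] using h'.fix _ k Q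

theorem fr_range {V : Type*} [AddCommGroup V] [Module ℝ V] (Ψ : (ι → ℝ) →ₗ[ℝ] V)
    (F : Submodule ℝ (ι → ℝ)) :
    finrank ℝ (LinearMap.range Ψ) + finrank ℝ F ≤ finrank ℝ (F.map Ψ) + Fintype.card ι := by
  obtain ⟨G, hG⟩ := F.exists_isCompl
  have h1 := Submodule.finrank_add_eq_of_isCompl hG
  have h2 : LinearMap.range Ψ = F.map Ψ ⊔ G.map Ψ := by
    rw [← Submodule.map_sup, hG.sup_eq_top, Submodule.map_top]
  have h3 := Submodule.finrank_add_le_finrank_add_finrank (F.map Ψ) (G.map Ψ)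
  have h4 := Submodule.finrank_map_le Ψ G
  rw [h2]
  simp only [finrank_fintype_fun_eq_card] at h1
  omega

theorem des (h : Ctx n Ω κ D H N) (i : ι) : Dsc Ω (D i) := by
  simpa using Gs.dsc_add h.term.smp (h.amp i).1 h.term.hull.1

theorem car (h : Ctx n Ω κ D H N) (i : ι) : D i ∈ Car K := Gs.dsc_car h.term.smp (des h i)

theorem amp_add (hΩ : Smp Ω) (a b : BD K) (ha : AmpOn Ω a) (hb : AmpOn Ω b) : AmpOn Ω (a + b) :=
  Gs.ampOn_add hΩ ha hb.1 (Gs.ampOn_smp hΩ hb)

theorem amp_big (hb : Big Ω) {A : BD K} (h : AmpOn Ω A) : Big A :=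
  let ⟨_, _, e, a⟩ := h
  (hb.smul e).of_sub a.psef

theorem big_of_dsc {R β : BD K} (h : Dsc R β) (hb : Big β) : Big R :=
  let ⟨_, e, _, a⟩ := h
  (hb.smul e).of_sub a.psef

/-- big classes are interior points -/
theorem int_of_big (h : Ctx n Ω κ D H N) (hy : y ∈ Op ι) (hb : Big (lc D y)) :
    y ∈ interior (Ec D) := by
  have k := near' (C := Big) (D := D) (y := y) (fun _ _ => Big.add) (fun _ _ c a => a.smul c) 0
    (by simpa using hb) fun i => by simpa using hb.opn (car h i)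
  refine mem_interior_iff_mem_nhds.2 ?_
  filter_upwards [k, isOpen_op.mem_nhds hy] with a h1 h2
  exact ⟨fun i => (h2 i).le, by simpa using h1.eff⟩

/-- a full cell next to `y` in an ample direction -/
theorem exists_full (h : Ctx n Ω κ D H N) (hy : y ∈ Op ι) :
    ∃ z ∈ Op ι, Rk H z 0 ∧ y ∈ cell H z ∧ AmpOn Ω (lc D (z - y)) := by
  have hΩ := h.term.smp
  obtain ⟨u, hu⟩ := h.onto Ω (Gs.dsc_self hΩ)
  have au : AmpOn Ω (lc D u) := by
    simpa using Gs.ampOn_prn hΩ (Gs.ampOn_self hΩ) (neg_mem hu)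
  have o1 : IsOpen {z | AmpOn Ω (lc D (z - y))} := isOpen_iff_mem_nhds.2 fun z hz =>
    near' (amp_add hΩ) (fun _ _ c a => Gs.ampOn_smul hΩ a c) y hz
      fun i => Gs.ampOn_small hΩ hz (des h i)
  obtain ⟨U, hU, oU, yU⟩ := mem_nhds_iff.1 (inter_mem (cell_near H y) (isOpen_op.mem_nhds hy))
  have c : ContinuousAt (fun t : ℝ => y + t • u) 0 := by fun_prop
  obtain ⟨δ, d, k⟩ := Metric.eventually_nhds_iff.1
    (c.eventually (oU.mem_nhds (by simpa using yU)))
  have ne : (U ∩ {z | AmpOn Ω (lc D (z - y))}).Nonempty := by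
    refine ⟨y + (δ / 2) • u, k ?_, ?_⟩
    · rw [Real.dist_eq, sub_zero, abs_of_pos (by positivity)]
      linarith
    · rw [mem_ofPred_eq, add_sub_cancel_left, lc_smul]
      exact Gs.ampOn_smul hΩ au (by positivity)
  obtain ⟨z, hz, g⟩ := Gs.avoidS (𝓕 := (fun g => Fl {g} 0) '' (H : Set (ι → ℤ)))
    (H.finite_toSet.image _).countable (oU.inter o1) ne
  refine ⟨z, (hU hz.1).2, ?_, (hU hz.1).1, hz.2⟩
  have : Fl H z = ⊤ := by
    refine top_unique fun v _ f hf e => ?_
    by_contra q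
    refine g _ ⟨f, hf, rfl⟩ (fun t => q ?_) fun f' hf' _ => ?_
    · have : v ∈ Fl {f} (0 : ι → ℝ) := by
        rw [show Fl {f} (0 : ι → ℝ) = ⊤ from t]
        trivial
      exact this f (Finset.mem_singleton_self f) (by simp)
    · rw [Finset.mem_singleton.1 hf']
      exact e
  rw [Rk, this]
  simp

theorem amp_rad (h : Ctx n Ω κ D H N) (hy : y ∈ Op ι) (hne : Nonempty ι) :
    AmpOn Ω (lc D y - (∑ i, y i) • κ) := by
  have hΩ := h.term.smp
  have e : lc D y - (∑ i, y i) • κ = ∑ i, y i • (D i - κ) := by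
    simp [lc, smul_sub, Finset.sum_smul]
  rw [e]
  exact Finset.sum_induction_nonempty _ (AmpOn Ω) (amp_add hΩ) Finset.univ_nonempty
    fun i _ => Gs.ampOn_smul hΩ (h.amp i) (hy i)

theorem main (h : Ctx n Ω κ D H N) {r : ℕ} (hy : Bp H (Ec D) (Op ι) r y) (hz : z ∈ Op ι)
    (h0 : Rk H z 0) (hc : y ∈ cell H z) (ha : AmpOn Ω (lc D (z - y))) (zE : z ∈ Ec D)
    (f : Fu n Ω κ D H N z L ΓY) : Fa n r Ω (lc D y - N y) (N y) (lc D z - N z) ΓY := by
  have hΩ := h.term.smp
  have yE : y ∈ Ec D := h.zc.sub z zE hc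
  have zy := h.zc.zd y yE
  have zz := h.zc.zd z zE
  have hY := f.term.smp
  have top := fl_top h0
  have nb : ¬ Big (lc D y - N y) := fun b =>
    hy.1.2 (int_of_big h hy.2.1 (b.mono (sub_le_self _ zy.nn)))
  have dR : Dsc (lc D z - N z) (lc D y - N y) := by
    rw [f.lin y hc]
    exact f.des y
  have le : Pic (lc D y - N y) ≤ Pic (lc D z - N z) :=
    Submodule.span_mono (image_mono fun _ k => Gs.dsc_trans dR k)
  have nm : (Prn K).mkQ (lc D z - N z) ∉ Pic (lc D y - N y) := fun k =>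
    nb (big_of_dsc ((Gs.mem_pic zy.smp).1 k) f.term.big)
  have mm : (Prn K).mkQ (lc D z - N z) ∈ Pic (lc D z - N z) :=
    (Gs.mem_pic hY).2 (Gs.dsc_self hY)
  have := h.pic _ hY
  have := h.pic _ zy.smp
  refine ⟨f.term, f.qf, dR, nb, fun P => (f.on P).trans (and_congr_right fun _ => ?_), ?_, ?_,
    fun e => ?_⟩
  · refine ⟨fun k => le_antisymm ?_ (zy.nn P), fun k => le_antisymm ?_ (zz.nn P)⟩
    · obtain ⟨ε, e, -, b⟩ := fl_eps (y := z) (v := y) (top ▸ Submodule.mem_top)
      have q := (h.zc.zd _ (h.zc.sub z zE b)).nn P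
      rw [f.lin _ b, map_sub, map_smul, ← f.lin _ hc, ← f.lin _ (mem_cell_self H z)] at q
      simp only [Pi.zero_apply, Pi.sub_apply, Pi.smul_apply, smul_eq_mul, k] at q
      nlinarith
    · exact k ▸ fix_mono zy zz (lc_sub D z y ▸ Gs.ampOn_smp hΩ ha) P
  · exact Submodule.finrank_lt_finrank_of_lt (lt_of_le_of_ne le fun k => nm (k ▸ mm))
  · let Ψ := (Prn K).mkQ ∘ₗ (lcL D - L)
    have r1 : LinearMap.range Ψ = Pic (lc D z - N z) := by
      refine le_antisymm ?_ ?_
      · rintro _ ⟨a, rfl⟩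
        exact (Gs.mem_pic hY).2 (f.des a)
      · refine Submodule.span_le.2 ?_
        rintro _ ⟨β, b, rfl⟩
        obtain ⟨a, k⟩ := f.onto β b
        exact ⟨a, ((Submodule.Quotient.eq _).2 k).symm⟩
    have r2 : (Fl H y).map Ψ ≤ Pic (lc D y - N y) := by
      rintro _ ⟨v, hv, rfl⟩
      obtain ⟨ε, e, a, b⟩ := fl_eps hv
      refine (Gs.mem_pic zy.smp).2 ⟨ε, e, ?_, ?_⟩
      · have q := (h.zc.zd _ (h.zc.sub y yE a)).smp
        rw [f.lin _ (cell_sub hc a), map_add, map_smul, lc_add, lc_smul, ← f.lin _ hc] at q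
        have w : lc D y - N y + ε • (lc D v - L v) = lc D y + ε • lc D v - (N y + ε • L v) := by
          module
        exact w ▸ q
      · have q := (h.zc.zd _ (h.zc.sub y yE b)).smp
        rw [f.lin _ (cell_sub hc b), map_sub, map_smul, lc_sub, lc_smul, ← f.lin _ hc] at q
        have w : lc D y - N y - ε • (lc D v - L v) = lc D y - ε • lc D v - (N y - ε • L v) := by
          module
        exact w ▸ q
    have r3 := fr_range Ψ (Fl H y)
    have r4 := Submodule.finrank_mono r2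
    have r5 := hy.2.2
    rw [r1] at r3
    simp only [rho, Rk] at *
    omega
  · have hne : Nonempty ι := by
      by_contra k
      have := not_nonempty_iff.1 k
      exact hy.1.2 (mem_interior_iff_mem_nhds.2 (univ_mem' fun a => Subsingleton.elim y a ▸ yE))
    obtain ⟨k, hk, eY⟩ := f.can
    have hA := amp_rad h hy.2.1 hne
    have hσ : 0 < ∑ i, y i := Finset.sum_pos (fun i _ => hy.2.1 i) Finset.univ_nonempty
    set σ := ∑ i, y i
    have pw : lc D (y - σ • k) - (lc D y - σ • κ) ∈ Prn K := by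
      have w : lc D (y - σ • k) - (lc D y - σ • κ) = σ • (κ - lc D k) := by
        rw [lc_sub, lc_smul]
        module
      exact w ▸ (Prn K).smul_mem σ hk
    have Lw : L (y - σ • k) ≤ 0 := by
      obtain ⟨ε, e, a, -⟩ := fl_eps (y := z) (v := y - σ • k) (top ▸ Submodule.mem_top)
      have q := fix_mono zz (h.zc.zd _ (h.zc.sub z zE a)) (by
        rw [lc_add, add_sub_cancel_left, lc_smul]
        exact ((Gs.ampOn_smp hΩ hA).congr pw).smul e.le)
      rw [f.lin _ a, map_add, map_smul, f.lin _ (mem_cell_self H z), add_le_iff_nonpos_right] at q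
      exact fun P => nonpos_of_mul_nonpos_right (q P) e
    have bΦ : Big (lc D (y - σ • k) - L (y - σ • k)) :=
      ((amp_big h.term.big hA).congr pw).mono (le_sub_self_iff _ |>.2 Lw)
    have dΦ := f.des (y - σ • k)
    have eΦ : lc D (y - σ • k) - L (y - σ • k) = lc D y - N y - σ • (ΓY - (κ - lc D k)) := by
      rw [lc_sub, lc_smul, map_sub, map_smul, f.lin y hc, eY]
      module
    set Φ := lc D (y - σ • k) - L (y - σ • k)
    set R := lc D y - N y
    set Y := lc D z - N z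
    have s1 : Pic R ⊔ ℝ ∙ (Prn K).mkQ Y ≤ Pic Y :=
      sup_le le ((Submodule.span_singleton_le_iff_mem _ _).2 mm)
    have := Submodule.finiteDimensional_of_le s1
    have s2 : Pic R ⊔ ℝ ∙ (Prn K).mkQ Y = Pic Y := by
      refine Submodule.eq_of_le_of_finrank_le s1 ?_
      have s3 : Pic R < Pic R ⊔ ℝ ∙ (Prn K).mkQ Y := lt_of_le_of_ne le_sup_left fun q =>
        nm (q ▸ Submodule.mem_sup_right (Submodule.mem_span_singleton_self _))
      have s4 := Submodule.finrank_lt_finrank_of_lt s3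
      simp only [rho] at e
      omega
    obtain ⟨p, hp, _, hq, s5⟩ := Submodule.mem_sup.1 (s2 ▸ (Gs.mem_pic hY).2 dΦ)
    obtain ⟨c, rfl⟩ := Submodule.mem_span_singleton.1 hq
    have d : Dsc R (Φ - c • Y) := by
      rw [← Gs.mem_pic zy.smp, map_sub, map_smul, ← s5, add_sub_cancel_right]
      exact hp
    have c0 : 0 < c := by
      by_contra q
      refine nb (big_of_dsc d ?_)
      rw [sub_eq_add_neg, ← neg_smul]
      exact bΦ.add_smp (hY.smul (neg_nonneg.2 (not_lt.1 q)))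
    obtain ⟨ε, e0, a, -⟩ := id d
    have t := Gs.ampOn_prn hY (Gs.ampOn_smul hY (Gs.ampOn_add hY
      (Gs.ampOn_smul hY (Gs.ampOn_self hY) (mul_pos e0 c0))
      (Gs.dsc_add hY dR (Gs.dsc_smul hY ε (Gs.dsc_trans dR d))) a)
      (inv_pos.2 (mul_pos hσ e0))) (neg_mem hk)
    refine ⟨(σ * ε)⁻¹ * (1 + ε), ?_⟩
    have w : ((σ * ε)⁻¹ * (1 + ε)) • R - ΓY =
        (σ * ε)⁻¹ • ((ε * c) • Y + (R + ε • (Φ - c • Y))) + -(κ - lc D k) := by
      rw [eΦ]
      funext P
      simp only [Pi.add_apply, Pi.sub_apply, Pi.smul_apply, Pi.neg_apply, smul_eq_mul]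
      field_simp
      ring
    rw [w]
    exact t

end Face

/-- **FACE** -/
theorem face (hF : FULL) : FACE := by
  intro n K _ _ hK ι _ Ω κ D H N h r y hy
  obtain ⟨z, hz, h0, hc, ha⟩ := Face.exists_full h hy.2.1
  have yE : y ∈ Ec D := (Face.isClosed_ec h.zc).closure_subset hy.1.1
  have zE : z ∈ Ec D := ⟨fun i => (hz i).le, by
    simpa [Face.lc_sub] using yE.2.add (Gs.ampOn_smp h.term.smp ha).eff⟩
  obtain ⟨L, ΓY, f⟩ := hF n K hK ι Ω κ D H N h z zE hz h0
  exact ⟨_, ΓY, Face.main h hy hz h0 hc ha zE f⟩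

end Vale.Agent.P287D
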