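import Vale.Agent.P287D.Ge.Face

/-!
# P287D, geography: the minimal model at any effective point
-/

open Set Filter Topology Module
open P277Z.Gor

noncomputable section

namespace Vale.Agent.P287D

variable {K : Type} [Field K] [Algebra ℂ K] {ι : Type} [Fintype ι] {n : ℕ} {Ω κ ΓY : BD K}
  {D : ι → BD K} {H : Finset (ι → ℤ)} {N : (ι → ℝ) → BD K} {y z : ι → ℝ}
  {L : (ι → ℝ) →ₗ[ℝ] BD K}

theorem Face.supp (h : Ctx n Ω κ D H N) (h0 : Rk H z 0) (hc : y ∈ cell H z)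
    (ha : AmpOn Ω (lc D (z - y))) (zE : z ∈ Ec D) (f : Fu n Ω κ D H N z L ΓY) (P : Pl K) :
    N z P = 0 ↔ N y P = 0 := by
  have zy := h.zc.zd y (h.zc.sub z zE hc)
  have zz := h.zc.zd z zE
  refine ⟨fun k => le_antisymm ?_ (zy.nn P), fun k => le_antisymm ?_ (zz.nn P)⟩
  · obtain ⟨ε, e, -, b⟩ := Face.fl_eps (y := z) (v := y) (Face.fl_top h0 ▸ Submodule.mem_top)
    have q := (h.zc.zd _ (h.zc.sub z zE b)).nn P
    rw [f.lin _ b, map_sub, map_smul, ← f.lin _ hc, ← f.lin _ (mem_cell_self H z)] at q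
    simp only [Pi.zero_apply, Pi.sub_apply, Pi.smul_apply, smul_eq_mul, k] at q
    nlinarith
  · exact k ▸ Face.fix_mono zy zz (Face.lc_sub D z y ▸ Gs.ampOn_smp h.term.smp ha) P

/-- a full point next to an effective point with the same fixed primes -/
theorem face1 (hF : FULL) (hK : FF K (n + 1)) (h : Ctx n Ω κ D H N) (yE : y ∈ Ec D)
    (hy : y ∈ Op ι) : ∃ z L ΓY, z ∈ Ec D ∧ z ∈ Op ι ∧ Rk H z 0 ∧ y ∈ cell H z ∧
      AmpOn Ω (lc D (z - y)) ∧ Fu n Ω κ D H N z L ΓY ∧ ∀ P, N z P = 0 ↔ N y P = 0 := by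
  obtain ⟨z, hz, h0, hc, ha⟩ := Face.exists_full h hy
  have zE : z ∈ Ec D := ⟨fun i => (hz i).le, by
    simpa [Face.lc_sub] using yE.2.add (Gs.ampOn_smp h.term.smp ha).eff⟩
  obtain ⟨L, ΓY, f⟩ := hF n K hK ι Ω κ D H N h z zE hz h0
  exact ⟨z, L, ΓY, zE, hz, h0, hc, ha, f, Face.supp h h0 hc ha zE f⟩

/-- the minimal model at an effective point -/
theorem face0 (hF : FULL) (hK : FF K (n + 1)) (h : Ctx n Ω κ D H N) (yE : y ∈ Ec D)
    (hy : y ∈ Op ι) : ∃ Y ΓY, Term n Y ΓY ∧ QF n Y ∧ Dsc Y (lc D y - N y) ∧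
      ∀ P, On n Y P ↔ On n Ω P ∧ N y P = 0 := by
  obtain ⟨z, L, ΓY, -, -, -, hc, -, f, k⟩ := face1 hF hK h yE hy
  refine ⟨_, ΓY, f.term, f.qf, ?_, fun P => (f.on P).trans (and_congr_right fun _ => k P)⟩
  rw [f.lin y hc]
  exact f.des y

end Vale.Agent.P287D
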