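import Vale.Agent.P287D.Ge.St
import Vale.Agent.P287D.Ge.Ent

/-!
# P287D, geography: the path along the boundary
-/

set_option linter.all false

open Set Filter Topology AffineMap
open P277Z.Gor

noncomputable section

namespace Vale.Agent.P287D

open Ge

variable {ι : Type} [Fintype ι] {H : Finset (ι → ℤ)} {y : ι → ℝ}

theorem mem_fl (H : Finset (ι → ℤ)) (y : ι → ℝ) : y ∈ Fl H y := fun _ _ h => h

theorem fl_eq (H : Finset (ι → ℤ)) (y : ι → ℝ) : ∃ S, Fl H y = Fl S 0 := by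
  classical
  refine ⟨H.filter (pr · y = 0), Submodule.ext fun v => ?_⟩
  change (∀ h ∈ H, pr h y = 0 → pr h v = 0) ↔ ∀ h ∈ H.filter (pr · y = 0), pr h 0 = 0 → pr h v = 0
  simp

theorem finrank_sup_span (Z : Submodule ℝ (ι → ℝ)) (p : ι → ℝ) :
    Module.finrank ℝ ↥(Z ⊔ ℝ ∙ p) ≤ Module.finrank ℝ Z + 1 :=
  (Submodule.finrank_add_le_finrank_add_finrank _ _).trans (by
    have := finrank_span_le_card (R := ℝ) ({p} : Set (ι → ℝ))
    simp at this; omega)

theorem rk_one {p : ι → ℝ} (h : Fl H y ⊔ ℝ ∙ p = ⊤) : Rk H y 1 := by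
  have := finrank_sup_span (Fl H y) p
  rwa [h, finrank_top, Module.finrank_fintype_fun_eq_card] at this

theorem rk_two {p q : ι → ℝ} (h : (Fl H y ⊔ ℝ ∙ p) ⊔ ℝ ∙ q = ⊤) : Rk H y 2 := by
  have := finrank_sup_span (Fl H y ⊔ ℝ ∙ p) q
  have := finrank_sup_span (Fl H y) p
  rw [h, finrank_top, Module.finrank_fintype_fun_eq_card] at *
  unfold Rk; omega

theorem mem_ent (H : Finset (ι → ℤ)) {E : Set (ι → ℝ)} {p q : ι → ℝ} (hc : IsClosed E) (hq : q ∈ E)
    (hp : p ∉ E) : q ∈ Fl H (ent E p q) ⊔ ℝ ∙ p := by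
  have h := et_pos hc hq hp
  have e : q = (et E p q)⁻¹ • ent E p q + (1 - (et E p q)⁻¹) • p := by
    simp only [ent, lineMap_apply_module]
    match_scalars <;> field_simp <;> ring
  rw [e]
  refine Submodule.add_mem_sup (Submodule.smul_mem _ _ ?_)
    (Submodule.smul_mem _ _ (Submodule.mem_span_singleton_self p))
  rw [← e]
  exact mem_fl _ _

theorem path : PATH := by
  intro ι _ H E O p q x W hc hv ho hvo hs hW
  have near : ∀ b, ∀ᶠ q' in 𝓝 (q b), (q' ∈ O ∧ q' ∈ interior E) ∧ ent E p q' ∈ interior (W b) :=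
    fun b => ((ho.eventually_mem (hs.inn b).1).and (isOpen_interior.eventually_mem (hs.inn b).2)).and
      (((ent_cont hc hv (hs.inn b).2 hs.out).comp (f := fun q' => (p, q')) (by fun_prop)).eventually
        (isOpen_interior.mem_nhds (by
          simpa [ent_eq hc hv (hs.inn b).2 (hs.seg b).2 (hs.seg b).1] using
            mem_interior_iff_mem_nhds.2 (hW b))))
  obtain ⟨q0, g0, a0, b0⟩ :=
    (dense_gen fun S : Finset (ι → ℤ) => Fl S 0 ⊔ ℝ ∙ p).inter_nhds_nonempty (near false)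
  obtain ⟨q1, g1, a1, b1⟩ :=
    (dense_gen fun S : Finset (ι → ℤ) => (Fl S 0 ⊔ ℝ ∙ p) ⊔ ℝ ∙ q0).inter_nhds_nonempty (near true)
  let c : ℝ → ι → ℝ := fun s => lineMap q0 q1 s
  let y : ℝ → ι → ℝ := fun s => ent E p (c s)
  let U : Set ℝ := {s | c s ∈ O ∧ c s ∈ interior E}
  let B : Set ℝ := ⋃ S : Finset (ι → ℤ), {s | Fl S 0 ⊔ ℝ ∙ p ≠ ⊤ ∧ c s ∈ Fl S 0 ⊔ ℝ ∙ p}
  have hB : B.Countable := countable_iUnion fun S => Set.Subsingleton.countable fun s k t k' => by
    by_contra e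
    refine g0 S k.1 ?_
    have : q0 = (t / (t - s)) • c s - (s / (t - s)) • c t := by
      have := sub_ne_zero.2 (Ne.symm e)
      simp only [c, lineMap_apply_module]
      match_scalars <;> field_simp <;> ring
    rw [this]
    exact sub_mem (Submodule.smul_mem _ _ k.2) (Submodule.smul_mem _ _ k'.2)
  have nb : ∀ s, (𝓝[Bᶜ] s).NeBot := fun s =>
    mem_closure_iff_nhdsWithin_neBot.1 (hB.dense_compl ℝ s)
  have hU : IsOpen U := (ho.preimage (cont_lm q0 q1)).inter (isOpen_interior.preimage (cont_lm q0 q1))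
  have hI : Icc (0 : ℝ) 1 ⊆ U := fun s k =>
    ⟨hvo.lineMap_mem a0.1 a1.1 k, hv.interior.lineMap_mem a0.2 a1.2 k⟩
  have cy : ∀ s ∈ U, ContinuousAt y s := fun s k =>
    (ent_cont hc hv k.2 hs.out).comp (f := fun s => (p, c s))
      (continuousAt_const.prodMk (cont_lm q0 q1).continuousAt)
  have f0 : ∀ s ∈ U, y s ∈ frontier E ∧ y s ∈ O := fun s k =>
    ⟨ent_front hc (interior_subset k.2) hs.out,
      hvo.segment_subset hs.mem k.1 (ent_seg hc (interior_subset k.2))⟩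
  have f1 : ∀ s ∈ U, s ∈ Bᶜ → Bp H E O 1 (y s) := fun s k k' => ⟨(f0 s k).1, (f0 s k).2, by
    refine rk_one (p := p) ?_
    have m := mem_ent H hc (interior_subset k.2) hs.out
    obtain ⟨S, e⟩ := fl_eq H (y s)
    by_contra n
    exact k' (mem_iUnion.2 ⟨S, e ▸ n, e ▸ m⟩)⟩
  have f2 : ∀ s ∈ U, Bp H E O 2 (y s) := fun s k => ⟨(f0 s k).1, (f0 s k).2, by
    refine rk_two (p := p) (q := q0) ?_
    have m : c s ∈ Fl H (y s) ⊔ ℝ ∙ p := mem_ent H hc (interior_subset k.2) hs.out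
    obtain ⟨S, e⟩ := fl_eq H (y s)
    rw [e] at m ⊢
    by_contra n
    by_cases z : s = 0
    · refine g0 S (fun t => n (by rw [t, top_sup_eq])) (by simpa [c, z] using m)
    · refine g1 S n ?_
      have : q1 = s⁻¹ • c s + (1 - s⁻¹) • q0 := by
        simp only [c, lineMap_apply_module]
        match_scalars <;> field_simp <;> ring
      rw [this]
      exact Submodule.add_mem_sup (Submodule.smul_mem _ _ m)
        (Submodule.smul_mem _ _ (Submodule.mem_span_singleton_self q0))⟩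
  have key := isPreconnected_Icc.induction₂' (fun s t => ∀ᶠ a in 𝓝[Bᶜ] s, ∀ᶠ b in 𝓝[Bᶜ] t,
      Relation.ReflTransGen (Stp H E O) (y a) (y b)) (fun s k => ?_)
    (fun r s t _ _ _ h h' => h.mono fun a k => ?_) (left_mem_Icc.2 zero_le_one)
    (right_mem_Icc.2 zero_le_one)
  · have e : ∀ s ∈ U, ∀ b, y s ∈ interior (W b) →
        ∀ᶠ a in 𝓝[Bᶜ] s, y a ∈ W b ∧ Bp H E O 1 (y a) := fun s k b k' => by
      filter_upwards [self_mem_nhdsWithin, mem_nhdsWithin_of_mem_nhds (hU.mem_nhds k),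
        mem_nhdsWithin_of_mem_nhds ((cy s k).eventually (mem_interior_iff_mem_nhds.1 k'))]
        with a u v w using ⟨w, f1 a v u⟩
    obtain ⟨a, u, v⟩ := (key.and (e 0 (hI (left_mem_Icc.2 zero_le_one)) false
      (by simpa [y, c] using b0))).exists
    obtain ⟨b, u', v'⟩ := (u.and (e 1 (hI (right_mem_Icc.2 zero_le_one)) true
      (by simpa [y, c] using b1))).exists
    exact ⟨fun t => Bool.rec (y a) (y b) t, fun t => by cases t <;> assumption, u'⟩
  · have e : ∀ᶠ a in 𝓝 s, a ∈ U ∧ y s ∈ cell H (y a) :=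
      (hU.eventually_mem (hI k)).and ((cy s (hI k)).eventually (cell_near H (y s)))
    have g : ∀ r t, (∀ᶠ a in 𝓝 r, a ∈ U ∧ y s ∈ cell H (y a)) →
        (∀ᶠ a in 𝓝 t, a ∈ U ∧ y s ∈ cell H (y a)) → ∀ᶠ a in 𝓝[Bᶜ] r, ∀ᶠ b in 𝓝[Bᶜ] t,
        Relation.ReflTransGen (Stp H E O) (y a) (y b) := fun r t u v => by
      filter_upwards [self_mem_nhdsWithin, mem_nhdsWithin_of_mem_nhds u] with a u1 u2
      filter_upwards [self_mem_nhdsWithin, mem_nhdsWithin_of_mem_nhds v] with b v1 v2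
      exact .single ⟨f1 a u2.1 u1, f1 b v2.1 v1, y s, f2 s (hI k), u2.2, v2.2⟩
    exact (e.eventually_nhds.filter_mono nhdsWithin_le_nhds).mono fun t u => ⟨g _ _ e u, g _ _ u e⟩
  · obtain ⟨b, u, v⟩ := (k.and h').exists
    exact v.mono fun _ w => u.trans w

end Vale.Agent.P287D
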