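import Vale.Agent.P287D.Ge.St
import Vale.Agent.P287D.Gs.Bas
import Vale.Agent.P287D.Va.Cone

/-!
# P287D, geography: cells, the effective cone
-/

set_option linter.all false

open Set Filter Topology
open P277Z.Gor

noncomputable section

namespace Vale.Agent.P287D.Ge

open Gs

variable {K : Type} [Field K] [Algebra ℂ K] {ι : Type} [Fintype ι] {n : ℕ} {Ω κ : BD K}
  {D : ι → BD K} {H : Finset (ι → ℤ)} {N : (ι → ℝ) → BD K} {a b y z : ι → ℝ}

theorem lc_add (D : ι → BD K) (a b : ι → ℝ) : lc D (a + b) = lc D a + lc D b := by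
  simp [lc, add_smul, Finset.sum_add_distrib]

theorem lc_smul (D : ι → BD K) (c : ℝ) (a : ι → ℝ) : lc D (c • a) = c • lc D a := by
  simp [lc, Finset.smul_sum, mul_smul]

/-- the combination as a linear map -/
def lcl (D : ι → BD K) : (ι → ℝ) →ₗ[ℝ] BD K where
  toFun := lc D
  map_add' := lc_add D
  map_smul' := lc_smul D

theorem lcl_apply (D : ι → BD K) (a : ι → ℝ) : lcl D a = lc D a := rfl

theorem lc_sub (D : ι → BD K) (a b : ι → ℝ) : lc D (a - b) = lc D a - lc D b := (lcl D).map_sub a b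

theorem lc_zero (D : ι → BD K) : lc D 0 = 0 := (lcl D).map_zero

theorem term_nn (h : Term n Ω κ) : 0 ≤ dsc (n + 1) κ := fun P => by
  by_cases e : On n Ω P
  · exact (sub_eq_zero.2 (h.hull.2 P e).symm).ge
  · exact (h.pos P e).le

theorem term_on (h : Term n Ω κ) (P : Pl K) : On n Ω P ↔ dsc (n + 1) κ P = 0 :=
  ⟨fun e => sub_eq_zero.2 (h.hull.2 P e).symm, fun e => by_contra fun k => (h.pos P k).ne' e⟩

theorem term_klt (h : Term n Ω κ) : Klt (n + 1) κ := fun P =>
  neg_one_lt_zero.trans_le (term_nn h P)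

theorem term_bdy (h : Term n Ω κ) : Bdy n Ω κ := fun P e => ((term_on h P).1 e).le

theorem term_car (h : Term n Ω κ) : κ ∈ Car K := dsc_car h.smp h.hull.1

theorem zd_eff {A F : BD K} (h : ZD A F) : Eff A := h.smp.eff.mono (sub_le_self _ h.nn)

theorem zd_rep {A F : BD K} (h : ZD A F) {T : Set (Pl K)} (hT : T.Finite) :
    ∃ G, Rep A G ∧ ∀ P ∈ T, G P = F P := by
  obtain ⟨G, a, b⟩ := h.smp.exists_rep hT
  exact ⟨G + F, by simpa using a.add (Rep.refl h.nn), fun P hP => by simp [b P hP]⟩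

theorem zd_le {A A' F F' S : BD K} (h : ZD A F) (h' : ZD A' F') (hS : Smp S)
    (e : A + S - A' ∈ Prn K) : F' ≤ F := fun P => by
  obtain ⟨G, a, b⟩ := zd_rep h (finite_singleton P)
  obtain ⟨G', a', b'⟩ := hS.exists_rep (finite_singleton P)
  have := h'.fix _ ((a.add a').congr (by simpa using neg_mem e)) P
  rwa [Pi.add_apply, b P rfl, b' P rfl, add_zero] at this

theorem zd_uniq {A A' F F' : BD K} (h : ZD A F) (h' : ZD A' F') (e : A - A' ∈ Prn K) : F = F' :=
  le_antisymm (zd_le h' h Smp.zero (by simpa using neg_mem e)) (zd_le h h' Smp.zero (by simpa))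

theorem ec_convex (D : ι → BD K) : Convex ℝ (Ec D) := fun _ h _ k s t hs ht _ =>
  ⟨add_nonneg (smul_nonneg hs h.1) (smul_nonneg ht k.1), by
    rw [lc_add, lc_smul, lc_smul]
    exact (h.2.smul hs).add (k.2.smul ht)⟩

theorem ec_add (h : a ∈ Ec D) (k : b ∈ Ec D) : a + b ∈ Ec D :=
  ⟨add_nonneg h.1 k.1, lc_add D a b ▸ h.2.add k.2⟩

theorem ec_smul (h : a ∈ Ec D) {c : ℝ} (hc : 0 ≤ c) : c • a ∈ Ec D :=
  ⟨smul_nonneg hc h.1, lc_smul D c a ▸ h.2.smul hc⟩

theorem ec_closed (h : Zc D H N) : IsClosed (Ec D) := by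
  have e : Ec D = ⋃ C ∈ cell H '' Ec D, C := Subset.antisymm
    (fun z hz => mem_biUnion (mem_image_of_mem _ hz) (mem_cell_self H z))
    (iUnion₂_subset (by rintro _ ⟨z, hz, rfl⟩; exact h.sub z hz))
  rw [e]
  exact ((finite_cells H).subset (image_subset_range _ _)).isClosed_biUnion
    (by rintro _ ⟨z, -, rfl⟩; exact isClosed_cell H z)

theorem op_open : IsOpen (Op ι) := by
  rw [Op, ofPred_forall]
  exact isOpen_iInter_of_finite fun i => isOpen_lt continuous_const (continuous_apply i)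

theorem op_convex : Convex ℝ (Op ι) := fun _ h _ k s t hs ht e i => by
  have h1 := h i
  have h2 := k i
  simp only [Pi.add_apply, Pi.smul_apply, smul_eq_mul]
  rcases hs.eq_or_lt with rfl | hs
  · rw [zero_add] at e
    simpa [e] using h2
  · positivity

theorem cell_push (h : a ∈ Fl H y) : ∃ ε : ℝ, 0 < ε ∧ ∀ c : ℝ, |c| ≤ ε → y + c • a ∈ cell H y := by
  have k : ∀ᶠ c : ℝ in 𝓝 0, y ∈ cell H (y + c • a) := by
    refine Tendsto.eventually ?_ (cell_near H y)
    exact Continuous.tendsto' (by fun_prop) _ _ (by simp)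
  obtain ⟨ε, e, k⟩ := Metric.eventually_nhds_iff.1 k
  refine ⟨ε / 2, by positivity, fun c hc g hg => ?_⟩
  have k := k (y := c) (by rw [Real.dist_0_eq_abs]; linarith) g hg
  by_cases e0 : pr g y = 0
  · simp [pr_add, pr_smul, e0, h g hg e0]
  · exact ⟨fun p => by_contra fun q => e0 (le_antisymm (k.2 (not_le.1 q).le) p),
      fun p => by_contra fun q => e0 (le_antisymm p (k.1 (not_le.1 q).le))⟩

theorem cell_fl (h : a ∈ cell H y) : a ∈ Fl H y := fun g hg e =>
  le_antisymm ((h g hg).2 e.le) ((h g hg).1 e.ge)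

theorem zc_add (h : Zc D H N) (hz : z ∈ Ec D) (ha : a ∈ cell H z) (hb : b ∈ cell H z) :
    N (a + b) = N a + N b := by
  obtain ⟨L, -, k⟩ := h.lin z hz
  rw [k _ (add_mem_cell ha hb), k a ha, k b hb, map_add]

theorem zc_smul (h : Zc D H N) (hz : z ∈ Ec D) {c : ℝ} (hc : 0 ≤ c) : N (c • z) = c • N z := by
  obtain ⟨L, -, k⟩ := h.lin z hz
  rw [k _ (smul_mem_cell (mem_cell_self H z) hc), k z (mem_cell_self H z), map_smul]

theorem zc_car (h : Zc D H N) (hz : z ∈ Ec D) : N z ∈ Car K := by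
  obtain ⟨L, a, k⟩ := h.lin z hz
  exact k z (mem_cell_self H z) ▸ a z

/-- on a face the fixed part is smaller and the moving part descends -/
theorem zc_face (h : Zc D H N) (hz : z ∈ Ec D) (hy : y ∈ cell H z) :
    (∀ P, N z P = 0 → N y P = 0) ∧ Dsc (lc D z - N z) (lc D y - N y) := by
  obtain ⟨L, -, k⟩ := h.lin z hz
  obtain ⟨ε, e, p⟩ := cell_push (cell_fl hy)
  have q : ∀ c : ℝ, |c| ≤ ε → ZD (lc D z + c • lc D y) (N z + c • N y) := fun c hc => by
    have := h.zd _ (h.sub z hz (p c hc))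
    rwa [k _ (p c hc), lc_add, lc_smul, map_add, map_smul, ← k z (mem_cell_self H z),
      ← k y hy] at this
  refine ⟨fun P hP => le_antisymm ?_ ((h.zd y (h.sub z hz hy)).nn P), dsc_of e fun c hc => ?_⟩
  · have := (q (-ε) (by rw [abs_neg, abs_of_pos e])).nn P
    simp only [Pi.add_apply, Pi.smul_apply, hP, smul_eq_mul, Pi.zero_apply] at this
    nlinarith
  · have := (q c hc).smp
    rwa [add_sub_add_comm, ← smul_sub] at this

theorem ctx_des (h : Ctx n Ω κ D H N) (a : ι → ℝ) : Dsc Ω (lc D a) :=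
  (dS h.term.smp).sum_mem fun i _ => dsc_smul h.term.smp _ (by
    simpa using dsc_add h.term.smp (h.amp i).1 h.term.hull.1)

theorem ctx_amp (h : Ctx n Ω κ D H N) (h0 : 0 ≤ a) {i : ι} (hi : 0 < a i) :
    AmpOn Ω (lc D a - (∑ j, a j) • κ) := by
  classical
  have s := h.term.smp
  have e : lc D a - (∑ j, a j) • κ =
      a i • (D i - κ) + ∑ j ∈ Finset.univ.erase i, a j • (D j - κ) := by
    rw [Finset.add_sum_erase _ (fun j => a j • (D j - κ)) (Finset.mem_univ i)]
    simp only [lc, smul_sub, Finset.sum_sub_distrib, Finset.sum_smul]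
  rw [e]
  exact ampOn_add s (ampOn_smul s (h.amp i) hi)
    ((dS s).sum_mem fun j _ => dsc_smul s _ (h.amp j).1)
    (Smp.sum _ fun j _ => (ampOn_smp s (h.amp j)).smul (h0 j))

theorem zc (hG : ZAR) : ZC := by
  classical
  intro n K _ _ hK ι _ Ω κ D hT hD
  have s := hT.smp
  obtain ⟨N, C, h1, h2, h3, h4⟩ := hG n K hK ι Ω D (fun _ => κ) s hT.big fun i =>
    ⟨(hD i).1, by simpa using dsc_add s (hD i).2.1 hT.hull.1, term_car hT, term_klt hT,
      term_bdy hT, (ampOn_smp s (hD i).2).nef, big_ampOn hT.big (hD i).2⟩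
  have inj : Function.Injective fun (v : ι → ℕ) i => (v i : ℤ) := fun v w e =>
    funext fun i => Nat.cast_injective (congrFun e i)
  choose T hT' using fun c : Finset (ι → ℕ) => exists_hcone (c.image fun v i => (v i : ℤ))
  have m : ∀ c a, a ∈ hcone (T c) ↔ ∃ w : (ι → ℕ) → ℝ, 0 ≤ w ∧
      a = ∑ v ∈ c, w v • fun i => (v i : ℝ) := fun c a => by
    rw [← hT']
    constructor
    · rintro ⟨t, a1, rfl⟩
      exact ⟨fun v => t fun i => v i, fun v => a1 _, by
        rw [Finset.sum_image inj.injOn]; rfl⟩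
    · rintro ⟨w, a1, rfl⟩
      exact sum_mem_cone _ _ fun v hv =>
        smul_mem_cone (toR_mem_cone (Finset.mem_image_of_mem _ hv)) (a1 v)
  have nn : ∀ c a, a ∈ hcone (T c) → 0 ≤ a := fun c a ha => by
    obtain ⟨w, a1, rfl⟩ := (m c a).1 ha
    exact Finset.sum_nonneg fun v _ => smul_nonneg (a1 v) fun i => Nat.cast_nonneg _
  have key : ∀ z ∈ Ec D, ∃ c ∈ C, cell (C.biUnion T) z ⊆ hcone (T c) := fun z hz => by
    obtain ⟨c, a1, a2⟩ := (h1 z hz.1).1 hz.2.psef
    exact ⟨c, a1, cell_le_hcone (Finset.subset_biUnion_of_mem T a1) ((m c z).2 a2)⟩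
  refine ⟨C.biUnion T, N, fun a ha => h2 a ha.1 ha.2.psef, fun z hz a ha => ?_, fun z hz => ?_⟩
  · obtain ⟨c, a1, a2⟩ := key z hz
    exact ⟨nn c a (a2 ha), zd_eff (h2 a (nn c a (a2 ha))
      ((h1 a (nn c a (a2 ha))).2 ⟨c, a1, (m c a).1 (a2 ha)⟩))⟩
  · obtain ⟨c, a1, a2⟩ := key z hz
    obtain ⟨L, b1, b2⟩ := exists_lin (C := hcone (T c)) N (Car K) (zero_mem_hcone _)
      (fun a ha b hb => ⟨add_mem_hcone ha hb, by
        obtain ⟨w, c1, rfl⟩ := (m c a).1 ha
        obtain ⟨w', c2, rfl⟩ := (m c b).1 hb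
        have := h4 c a1 (w + w') (add_nonneg c1 c2)
        simp only [Pi.add_apply, add_smul, Finset.sum_add_distrib] at this
        rw [this, h4 c a1 w c1, h4 c a1 w' c2]⟩)
      (fun a ha t ht => ⟨smul_mem_hcone ha ht, by
        obtain ⟨w, c1, rfl⟩ := (m c a).1 ha
        have := h4 c a1 (t • w) (smul_nonneg ht c1)
        simp only [Pi.smul_apply, smul_eq_mul, mul_smul, ← Finset.smul_sum] at this
        rw [this, h4 c a1 w c1]⟩)
      fun a ha => by
        obtain ⟨w, c1, rfl⟩ := (m c a).1 ha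
        rw [h4 c a1 w c1]
        exact sum_mem fun v hv => Submodule.smul_mem _ _ (h3 c a1 v hv).car
    exact ⟨L, b1, fun a ha => b2 a (a2 ha)⟩

end Vale.Agent.P287D.Ge
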