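import Vale.Agent.P287D.Ge.St2
import Vale.Agent.P287D.Ge.Zc
import Vale.Agent.P287D.Ge.Face
import Vale.Agent.P287D.Ge.Path
import Vale.Agent.P287D.Gs.Ful

/-!
# P287D, geography: the assembly
-/

set_option linter.all false

open Set Filter Topology
open P277Z.Gor

noncomputable section

namespace Vale.Agent.P287D.Ge

open Gs

variable {K : Type} [Field K] [Algebra ℂ K] {ι : Type} [Fintype ι] {n : ℕ} {Ω κ : BD K}
  {D : ι → BD K} {H : Finset (ι → ℤ)} {N : (ι → ℝ) → BD K} {x y z : ι → ℝ}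

theorem face0 (hF : FULL) : FACE0 := by
  intro n K _ _ hK ι _ Ω κ D H N h w wE ho
  obtain ⟨z, hz, h0, hc, ha⟩ := Face.exists_full h ho
  have s : Smp (lc D z - lc D w) := lc_sub D z w ▸ ampOn_smp h.term.smp ha
  have zE : z ∈ Ec D := ⟨fun i => (hz i).le, by simpa using wE.2.add s.eff⟩
  obtain ⟨L, ΓY, f⟩ := hF n K hK ι Ω κ D H N h z zE hz h0
  exact ⟨_, ΓY, f.term, f.qf, (zc_face h.zc zE hc).2, fun P => (f.on P).trans
    (and_congr_right fun _ => ⟨(zc_face h.zc zE hc).1 P, fun k => le_antisymm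
      (k ▸ Face.fix_mono (h.zc.zd w wE) (h.zc.zd z zE) s P) ((h.zc.zd z zE).nn P)⟩)⟩

/-- a rational point of the open cell -/
theorem rat_pt [Nonempty ι] (H : Finset (ι → ℤ)) (hy : y ∈ Op ι) : ∃ z ∈ Op ι, z ∈ cell H y ∧
    y ∈ cell H z ∧ (∀ i, ∃ q : ℚ, z i = q) ∧ ∑ i, z i = 1 := by
  obtain ⟨s, hs⟩ := cell_cone H y
  obtain ⟨t, t0, ht⟩ : y ∈ cone s := hs ▸ mem_cell_self H y
  have c : Continuous fun u : (ι → ℤ) → ℝ => ∑ v ∈ s, max (u v) 0 • toR v := by fun_prop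
  have e : ∑ v ∈ s, max (t v) 0 • toR v = y := by
    rw [ht]
    exact Finset.sum_congr rfl fun v _ => by rw [max_eq_left (t0 v)]
  have k := (c.tendsto' t y e).eventually ((cell_near H y).and (op_open.mem_nhds hy))
  obtain ⟨_, ⟨k1, k2⟩, u, rfl⟩ := mem_closure_iff_nhds.1
    ((DenseRange.piMap fun _ : ι → ℤ => Rat.denseRange_cast (𝕜 := ℝ)) t) _ k
  set w := ∑ v ∈ s, max (Pi.map (fun _ => ((↑) : ℚ → ℝ)) u v) 0 • toR v with hw
  have w1 : w ∈ cell H y := hs ▸ ⟨_, fun v => le_max_right _ _, rfl⟩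
  have w2 : ∀ i, ∃ q : ℚ, w i = q := fun i =>
    ⟨∑ v ∈ s, max (u v) 0 * v i, by simp [hw, Finset.sum_apply]⟩
  have p : 0 < ∑ i, w i := Finset.sum_pos (fun i _ => k2 i) Finset.univ_nonempty
  choose q hq using w2
  refine ⟨(∑ i, w i)⁻¹ • w, fun i => mul_pos (inv_pos.2 p) (k2 i),
    smul_mem_cell w1 (inv_pos.2 p).le, fun g hg => ?_, fun i => ⟨(∑ i, q i)⁻¹ * q i, by
      simp [hq]⟩, by simp [← Finset.mul_sum, p.ne']⟩
  rw [pr_smul]
  exact ⟨fun a => (k1 g hg).1 (nonneg_of_mul_nonneg_right a (inv_pos.2 p)),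
    fun a => (k1 g hg).2 (nonpos_of_mul_nonpos_right a (inv_pos.2 p))⟩

theorem fl_congr (h : z ∈ cell H y) (h' : y ∈ cell H z) : Fl H z = Fl H y :=
  Submodule.ext fun _ => ⟨fun k g hg e => k g hg (cell_fl h g hg e),
    fun k g hg e => k g hg (cell_fl h' g hg e)⟩

theorem bp_mem {r : ℕ} (h : Zc D H N) (hy : Bp H (Ec D) (Op ι) r y) : y ∈ Ec D :=
  (ec_closed h).closure_subset hy.1.1

theorem bp_ne {r : ℕ} (h : Zc D H N) (hy : Bp H (Ec D) (Op ι) r y) : Nonempty ι := by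
  by_contra k
  have := not_nonempty_iff.1 k
  exact hy.1.2 (mem_interior_iff_mem_nhds.2 (univ_mem' fun a =>
    Subsingleton.elim y a ▸ bp_mem h hy))

theorem bp_cell {r : ℕ} (h : Zc D H N) (hy : Bp H (Ec D) (Op ι) r y) (hz : z ∈ Op ι)
    (h1 : z ∈ cell H y) (h2 : y ∈ cell H z) : Bp H (Ec D) (Op ι) r z := by
  have yE := bp_mem h hy
  refine ⟨⟨subset_closure (h.sub y yE h1), fun k => hy.1.2 ?_⟩, hz, by
    rw [Rk, fl_congr h1 h2]; exact hy.2.2⟩
  obtain ⟨ε, e, p⟩ := cell_push (sub_mem (cell_fl (mem_cell_self H y)) (cell_fl h1))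
  refine (ec_convex D).openSegment_interior_self_subset_interior k
    (h.sub y yE (p ε (abs_of_pos e).le)) ⟨ε / (1 + ε), 1 / (1 + ε), by positivity, by positivity,
      by field_simp; ring, funext fun i => ?_⟩
  simp only [Pi.add_apply, Pi.smul_apply, Pi.sub_apply, smul_eq_mul]
  field_simp
  ring

theorem zd_rat (hG : ZAR) (hK : FF K (n + 1)) (hT : Term n Ω κ) {A F : BD K} (hq : CarQ A)
    (hA : AmpOn Ω (A - κ)) (h : ZD A F) : CarQ F := by
  have s := hT.smp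
  obtain ⟨N, C, h1, h2, h3, -⟩ := hG n K hK Unit Ω (fun _ => A) (fun _ => κ) s hT.big fun _ =>
    ⟨hq, by simpa using dsc_add s hA.1 hT.hull.1, term_car hT, term_klt hT,
      term_bdy hT, (ampOn_smp s hA).nef, big_ampOn hT.big hA⟩
  obtain ⟨c, hc, w, -, e⟩ := (h1 1 zero_le_one).1 (by simpa [lc] using (zd_eff h).psef)
  obtain ⟨v, hv, k⟩ : ∃ v ∈ c, v () ≠ 0 := by
    by_contra k
    push Not at k
    have := congrFun e ()
    rw [Finset.sum_apply, Finset.sum_eq_zero fun v hv => by simp [k v hv]] at this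
    exact one_ne_zero this
  have p : (0 : ℝ) < v () := by exact_mod_cast Nat.pos_of_ne_zero k
  have z := zd_smul h p
  have e' : lc (fun _ : Unit => A) (fun i => (v i : ℝ)) = (v () : ℝ) • A := by simp [lc]
  have := zd_uniq z (h2 (fun i => v i) (fun i => Nat.cast_nonneg _) (e' ▸ (zd_eff z).psef))
    (by simp [e'])
  have q := (h3 c hc v hv).qsmul (v () : ℚ)⁻¹
  rw [← this, smul_smul] at q
  simpa [p.ne'] using q

theorem vtx_of (h : GA) (hK : FF K (n + 1)) (c : Ctx n Ω κ D H N) (q1 : CarQ κ)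
    (q2 : ∀ i, CarQ (D i)) (hy : Bp H (Ec D) (Op ι) 2 y) (hq : ∀ i, ∃ q : ℚ, y i = q)
    (h1 : ∑ i, y i = 1) : ∃ Y ΓY, Vtx n (κ - N y) (lc D y - N y) Y ΓY ∧
      ∀ P, On n Y P ↔ On n Ω P ∧ N y P = 0 := by
  obtain ⟨Y, ΓY, f⟩ := face (full h) n K hK ι Ω κ D H N c 2 y hy
  have s := c.term.smp
  have yE := bp_mem c.zc hy
  have z := c.zc.zd y yE
  obtain ⟨i⟩ := bp_ne c.zc hy
  have a : AmpOn Ω (lc D y - κ) := by simpa [h1] using ctx_amp c yE.1 (hy.2.1 i)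
  have sa := ampOn_smp s a
  have e : lc D y - N y - (κ - N y) = lc D y - κ := by abel
  have ed : ∀ P, dsc (n + 1) (κ - N y) P = dsc (n + 1) κ P + N y P := fun P => by
    simp only [dsc, Pi.sub_apply]
    ring
  obtain ⟨-, -, i1, i2, -⟩ := h.neg.iso n K hK Ω _ s sa a
  have qD : CarQ (lc D y) := CarQ.sum _ fun i _ => by
    obtain ⟨q, hq⟩ := hq i
    exact hq ▸ (q2 i).qsmul q
  refine ⟨Y, ΓY, ⟨sub_mem (term_car c.term) (zc_car c.zc yE), z.smp, f.nb, e ▸ sa,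
    e ▸ big_ampOn c.term.big a, fun P => ?_, f.term, f.qf, f.des, fun P => ?_, f.up, ?_,
    ⟨qD.sub (zd_rat h.zar hK c.term qD a z), e ▸ qD.sub q1⟩, fun Λ l1 l2 l3 l4 => ?_⟩, f.on⟩
  · rw [ed]
    exact add_nonneg (term_nn c.term P) (z.nn P)
  · rw [f.on, ed, add_eq_zero_iff_of_nonneg (term_nn c.term P) (z.nn P), term_on c.term]
  · rw [e]
    refine ⟨κ, ⟨sa, big_ampOn c.term.big a, ⟨(i2 _).1 c.term.hull.1, fun P k =>
      c.term.hull.2 P ((i1 P).2 k)⟩, fun P k => c.term.pos P fun j => k ((i1 P).1 j)⟩,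
      fun P k => ?_, fun P k => (i1 P).1 ((f.on P).1 k).1⟩
    obtain ⟨β, b1, b2, b3⟩ := c.qf P ((i1 P).2 k)
    exact ⟨β, b1, (i2 _).1 b2, fun Q j => b3 Q ((i1 Q).2 j)⟩
  · obtain ⟨β, b1, b2⟩ := exists_hull h.neg hK s c.qf (isb_fin hK h.neg s c.term.big
      ((h.mod.isb n K hK).1 Λ l1.car))
    have b3 : Λ ≤ β := le_hull h.neg hK s c.term.big l1 b1 fun P k => (b2 P k).ge
    obtain ⟨v, hv⟩ := c.onto β b1
    have ct : ContinuousAt (fun t : ℝ => y + t • v) 0 := by fun_prop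
    obtain ⟨δ, k1, (k2 : 0 < δ)⟩ := (((ct.eventually (op_open.mem_nhds (by simpa using hy.2.1))).filter_mono
      (nhdsWithin_le_nhds (s := Ioi 0))).and self_mem_nhdsWithin).exists
    have a' : AmpOn Λ (δ • Λ + (lc D y - N y)) :=
      ampOn_add l1 (ampOn_smul l1 (ampOn_self l1) k2) l3 z.smp
    have e' : lc D y + δ • β - (N y + δ • (β - Λ)) = δ • Λ + (lc D y - N y) := by module
    have zd : ZD (lc D y + δ • β) (N y + δ • (β - Λ)) := by
      refine ⟨add_nonneg z.nn (smul_nonneg k2.le (sub_nonneg.2 b3)), e' ▸ ampOn_smp l1 a',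
        fun G hG => sub_nonneg.1 (det h.neg hK l1 l2 ?_ fun P k => ?_)⟩
      · have : G - (N y + δ • (β - Λ)) = δ • Λ + (lc D y - N y) + (G - (lc D y + δ • β)) := by
          module
        exact this ▸ dsc_add l1 a'.1 (dsc_prn l1 hG.2)
      · have j := (f.on P).1 (l4 P k)
        simpa [j.2, b2 P j.1] using hG.1 P
    have pr : lc D y + δ • β - lc D (y + δ • v) ∈ Prn K := by
      have : lc D y + δ • β - lc D (y + δ • v) = δ • (β - lc D v) := by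
        rw [lc_add, lc_smul]
        module
      exact this ▸ (Prn K).smul_mem δ hv
    have wE : y + δ • v ∈ Ec D := ⟨fun i => (k1 i).le, (zd_eff zd).congr (by simpa using neg_mem pr)⟩
    have u := zd_uniq zd (c.zc.zd _ wE) pr
    obtain ⟨Z, ΓZ, z1, z2, z3, z4⟩ := face0 (full h) n K hK ι Ω κ D H N c _ wE k1
    refine ⟨Z, ΓZ, z1, z2, dsc_trans z3 (ampOn_dsc l1 ?_), fun P => ?_⟩
    · have : lc D (y + δ • v) - N (y + δ • v) =
          δ • Λ + (lc D y - N y) + -(lc D y + δ • β - lc D (y + δ • v)) := by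
        rw [← u]
        module
      exact this ▸ ampOn_prn l1 a' (neg_mem pr)
    · rw [z4, f.on, ← u]
      exact and_congr_right fun k => by simp [b2 P k]

theorem prn_of_dsc (hM : MOD) (hK : FF K (n + 1)) {β : BD K} (h : Dsc 0 β) : β ∈ Prn K := by
  obtain ⟨ε, e, a, b⟩ := h
  obtain ⟨G, a1, a2⟩ := a.eff
  obtain ⟨G', b1, b2⟩ := b.eff
  have k := hM.zero n K hK (G + G') (by simpa using add_mem a2 b2) (add_nonneg a1 b1)
  rw [((add_eq_zero_iff_of_nonneg a1 b1).1 k).1] at a2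
  simpa [smul_smul, e.ne'] using (Prn K).smul_mem (-ε⁻¹) a2

theorem rho_zero (hM : MOD) (hK : FF K (n + 1)) : rho (0 : BD K) = 0 := by
  have e : Pic (0 : BD K) = ⊥ := Submodule.span_eq_bot.2 (by
    rintro _ ⟨β, hβ, rfl⟩
    exact (Submodule.Quotient.mk_eq_zero _).2 (prn_of_dsc hM hK hβ))
  rw [rho, e, finrank_bot]

theorem lnk_of (h : GA) (hK : FF K (n + 1)) (c : Ctx n Ω κ D H N) (q1 : CarQ κ)
    (q2 : ∀ i, CarQ (D i)) (hy : Bp H (Ec D) (Op ι) 2 y) (a : Bool → BD K × BD K × BD K)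
    (x : Bool → ι → ℝ) (hx : ∀ b, x b ∈ Ec D ∧ y ∈ cell H (x b) ∧ Mfs n (a b).1 (a b).2.1 (a b).2.2 ∧
      Dsc (a b).2.2 (lc D (x b) - N (x b)) ∧ ∀ P, On n (a b).1 P → On n Ω P ∧ N (x b) P = 0) :
    Lnk n (a false) (a true) := by
  have := bp_ne c.zc hy
  obtain ⟨z, z1, z2, z3, z4, z5⟩ := rat_pt H hy.2.1
  obtain ⟨Y, ΓY, v, o⟩ := vtx_of h hK c q1 q2 (bp_cell c.zc hy z1 z2 z3) z4 z5
  have k : ∀ b, Sd n (lc D z - N z) Y (a b) := fun b => by
    obtain ⟨a1, a2, a3, a4, a5⟩ := hx b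
    have f := zc_face c.zc a1 (cell_sub a2 z2)
    have s : ∀ P, On n (a b).1 P → On n Y P := fun P j =>
      (o P).2 ⟨(a5 P j).1, f.1 P (a5 P j).2⟩
    exact ⟨a3, dsc_trans a4 f.2, s, h.rho n K hK _ _ v.term.smp v.term.big a3.term.smp
      a3.term.big v.qf a3.qf (c.pic _ v.term.smp) s⟩
  exact ⟨_, _, Y, ΓY, v, k false, k true⟩

theorem geo (h : GA) (hS : SETUP1) : GEO := by
  intro n K _ _ hK Λ Γ Λ' Γ' f t f' t'
  let L : Bool → BD K := fun b => b.rec Λ Λ'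
  let G : Bool → BD K := fun b => b.rec Γ Γ'
  have fL : ∀ b, Fano1 n (L b) := fun b => b.rec f f'
  have tL : ∀ b, Term n (L b) (G b) := fun b => b.rec t t'
  obtain ⟨ι, _, Ω, κ, D, H, N, p, q, x, c, q1, q2, s, e⟩ := hS n K hK L fL
  obtain ⟨x', h1, h2⟩ := path ι H _ _ p q x _ (ec_closed c.zc) (ec_convex D) op_open op_convex s e
  choose! Y ΓY hY using face (full h) n K hK ι Ω κ D H N c 1
  let S : (ι → ℝ) → BD K × BD K × BD K := fun x => (Y x, ΓY x, lc D x - N x)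
  have hS : ∀ x, Bp H (Ec D) (Op ι) 1 x → Mfs n (S x).1 (S x).2.1 (S x).2.2 ∧
      Dsc (S x).2.2 (lc D x - N x) ∧ ∀ P, On n (S x).1 P → On n Ω P ∧ N x P = 0 := fun x hx => by
    have g := hY x hx
    have s := (c.zc.zd x (bp_mem c.zc hx)).smp
    have r := le_antisymm g.up g.lo
    exact ⟨⟨g.term, g.qf, s, g.des, g.nb, r, g.amp r⟩, dsc_self s, fun P => (g.on P).1⟩
  have hE : ∀ b, Mfs n (L b) (G b) 0 ∧ Dsc 0 (lc D (x' b) - N (x' b)) ∧
      ∀ P, On n (L b) P → On n Ω P ∧ N (x' b) P = 0 := fun b => by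
    obtain ⟨e1, e2⟩ := (h1 b).1 (h1 b).2.1
    obtain ⟨Γ₀, t0, a0⟩ := (fL b).term
    have t := tL b
    have eq := det_eq h.neg hK t.smp t.big t.hull.1 t0.hull.1 fun P k =>
      (t.hull.2 P k).trans (t0.hull.2 P k).symm
    exact ⟨⟨t, (fL b).qf, Smp.zero, dsc_zero t.smp, fun k => (hY _ (h1 b).2).nb
      (k.congr (by simpa using e1)), by rw [(fL b).rho, rho_zero h.mod hK], 0, by simpa [eq]⟩,
      dsc_prn Smp.zero e1, fun P => (e2 P).1⟩
  have up : ∀ x, Bp H (Ec D) (Op ι) 1 x → Bp H (Ec D) (Op ι) 2 x := fun x k =>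
    ⟨k.1, k.2.1, k.2.2.trans (Nat.le_succ _)⟩
  have m := fun b => bp_mem c.zc (h1 b).2
  refine .head (b := S (x' false)) ?_ (.tail (h2.lift S ?_) ?_)
  · exact lnk_of h hK c q1 q2 (up _ (h1 false).2) (fun b => b.rec (Λ, Γ, 0) (S (x' false)))
      (fun _ => x' false) fun b => b.rec ⟨m _, mem_cell_self _ _, hE false⟩
        ⟨m _, mem_cell_self _ _, hS _ (h1 false).2⟩
  · rintro u u' ⟨a1, a2, y, a3, a4, a5⟩
    exact lnk_of h hK c q1 q2 a3 (fun b => b.rec (S u) (S u')) (fun b => b.rec u u')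
      fun b => b.rec ⟨bp_mem c.zc a1, a4, hS _ a1⟩ ⟨bp_mem c.zc a2, a5, hS _ a2⟩
  · exact lnk_of h hK c q1 q2 (up _ (h1 true).2) (fun b => b.rec (S (x' true)) (Λ', Γ', 0))
      (fun _ => x' true) fun b => b.rec ⟨m _, mem_cell_self _ _, hS _ (h1 true).2⟩
        ⟨m _, mem_cell_self _ _, hE true⟩

end Vale.Agent.P287D.Ge
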